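import Crest.Agent.X212.Cut71.Cy
import Crest.Agent.X212.Pb50.Pt

/-!
# Row 212, SW-CUT (helper71): one side of a cut, the pasted configuration
-/

set_option autoImplicit false
set_option linter.unusedSectionVars false
noncomputable section
open scoped Manifold ContDiff Topology InnerProductSpace ENNReal
open MeasureTheory Set Function Filter

namespace Crest.Agent.X212.Cut71
open An Sw Sob92 Cyf70 Sw.En3 Pb50
open M (Mf pm)
open Nd18 (ct Dp Jv isOpen_Jv)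
open Sep15.S (mem_Jv_map)

variable {κ lam ν : Type} [Fintype κ] [Fintype lam] [Fintype ν] [DecidableEq ν]
  {X X' : Mf 4} {nc nc' : ℕ}

section time
variable {p q p' q' : Option ℝ} {b : Bool} {δ τ t t' D : ℝ}

theorem ct_zero' (h : t ∉ Jv (p.map (· + D)) (q.map (· - D))) : ct p q D t = 0 := by
  have z := @Real.smoothTransition.zero_of_nonpos
  rw [mem_Jv_map, not_and_or] at h
  rcases h with h | h <;> push Not at h <;> obtain ⟨a, rfl, h⟩ := h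
  · simp [ct, z (show t - a - D ≤ 0 by linarith)]
  · simp [ct, z (show a - t - D ≤ 0 by linarith)]

theorem up (h1 : if b then q' = none else p' = none)
    (h : t ∈ Jv (p'.map (· + D)) (q'.map (· - D))) (k : pm b * t ≤ pm b * t') :
    t' ∈ Jv (p'.map (· + D)) (q'.map (· - D)) := by
  rw [mem_Jv_map] at h ⊢
  cases b <;> simp only [pm, if_true, Bool.false_eq_true, if_false] at h1 k <;> subst h1
  · exact ⟨by simp, fun a ha => by linarith [h.2 a ha]⟩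
  · exact ⟨fun a ha => by linarith [h.1 a ha], by simp⟩

variable (h1 : if b then q' = none else p' = none)
  (h2 : if b then p = p'.map (· + δ) else q = q'.map (· + δ))
include h1 h2

theorem back (h : t + δ ∈ Jv (p.map (· + D)) (q.map (· - D))) :
    t ∈ Jv (p'.map (· + D)) (q'.map (· - D)) := by
  rw [mem_Jv_map] at h ⊢
  cases b <;> simp only [if_true, Bool.false_eq_true, if_false] at h1 h2 <;> subst h1 h2
  · exact ⟨by simp, fun a ha => by linarith [h.2 (a + δ) (by simp [Option.mem_def.1 ha])]⟩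
  · exact ⟨fun a ha => by linarith [h.1 (a + δ) (by simp [Option.mem_def.1 ha])], by simp⟩

variable (hw : Icc (τ - 6) (τ + 6) ⊆ Jv p q) (ht : pm b * (t - (τ - δ)) ≤ 3)
include hw ht

theorem forth (hD : D ≤ 3) (h : t ∈ Jv (p'.map (· + D)) (q'.map (· - D))) :
    t + δ ∈ Jv (p.map (· + D)) (q.map (· - D)) := by
  have k1 := (hw (left_mem_Icc.2 (by linarith))).1
  have k2 := (hw (right_mem_Icc.2 (by linarith))).2
  rw [mem_Jv_map] at h ⊢
  cases b <;> simp only [pm, if_true, Bool.false_eq_true, if_false] at h1 h2 ht <;> subst h1 h2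
  · refine ⟨fun a ha => by linarith [k1 a ha], fun a ha => ?_⟩
    obtain ⟨a', h3, rfl⟩ := Option.mem_map.1 ha
    linarith [h.2 a' h3]
  · refine ⟨fun a ha => ?_, fun a ha => by linarith [k2 a ha]⟩
    obtain ⟨a', h3, rfl⟩ := Option.mem_map.1 ha
    linarith [h.1 a' h3]

theorem ct_eq : ct p' q' 1 t = ct p q 1 (t + δ) := by
  have k1 := (hw (left_mem_Icc.2 (by linarith))).1
  have k2 := (hw (right_mem_Icc.2 (by linarith))).2
  have o := @Real.smoothTransition.one_of_one_le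
  cases b <;> simp only [pm, if_true, Bool.false_eq_true, if_false] at h1 h2 ht <;> subst h1 h2
  · have : (p.elim 1 fun a => Real.smoothTransition (t + δ - a - 1)) = 1 := by
      cases p
      exacts [rfl, o (by linarith [k1 _ rfl])]
    rw [ct, ct, this]
    cases q'
    exacts [rfl, by simp]
  · have : (q.elim 1 fun a => Real.smoothTransition (a - (t + δ) - 1)) = 1 := by
      cases q
      exacts [rfl, o (by linarith [k2 _ rfl])]
    rw [ct, ct, this]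
    cases p'
    exacts [rfl, by simp]

end time

section nk
variable {e : En3 κ lam ν} {b : Bg X.I X.M κ lam ν nc} {b' : Bg X'.I X'.M κ lam ν nc'}
  (K : Nk e b) {x : X.M} {S : Set ℝ}

theorem deep_zero : K.deep 0 = K.J := by simp [Nk.deep]

theorem mem_img (hS : S ⊆ K.J) : x ∈ K.ψ '' (univ ×ˢ S) ↔ K.tm x ∈ S := by
  refine ⟨?_, fun h => ?_⟩
  · rintro ⟨z, hz, rfl⟩
    rw [K.tm_ψ z (K.mem_src.2 (hS hz.2))]
    exact hz.2
  · have : x ∈ K.ψ.target := K.tgt ▸ hS h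
    exact ⟨_, ⟨trivial, (K.snd_symm this).symm ▸ h⟩, K.ψ.right_inv this⟩

theorem tm_tgt : x ∈ K.ψ.target ↔ K.tm x ∈ K.J := by rw [K.tgt]; rfl

theorem χ_zero' (h : K.tm x ∉ K.deep 1) : K.χ x = 0 := ct_zero' h

theorem off_deep {D : ℝ} (hD : 1 ≤ D) (h : ∃ a, K.p = some a ∧ K.q = some (a + 2)) (t : ℝ) :
    t ∉ K.deep D := fun k => by
  obtain ⟨a, h1, h2⟩ := h
  have := mem_Jv_map.1 k
  linarith [this.1 a h1, this.2 _ h2]

/-- the terms of two necks agree -/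
structure Mt (K' : Nk e b') (c : Cfg X.M κ ν) (c' : Cfg X'.M κ ν) (t δ : ℝ) : Prop where
  J' : t ∈ K'.J
  J : t + δ ∈ K.J
  cut : K'.cut 1 t = K.cut 1 (t + δ)
  sl : t ∈ Dp K'.p K'.q 1 → ∀ s ∈ Icc (t - 1 / 2) (t + 1 / 2), sl (K'.pb c') s = sl (K.pb c) (s + δ)

theorem lb_shf (c : e.ZC) (δ t : ℝ) : lb (shf δ c) t = lb c (t + δ) :=
  congrArg av (funext fun p => by rw [sl_shf, show t + p - 1 / 2 + δ = t + δ + p - 1 / 2 by ring])

variable {K} {K' : Nk e b'} {c : Cfg X.M κ ν} {c' : Cfg X'.M κ ν} {t δ : ℝ}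

theorem Mt.terms (h : Mt K K' c c' t δ) (y : e.Y.M) :
    K'.rad c' (K'.ψ (y, t)) = K.rad c (K.ψ (y, t + δ)) ∧
      K'.hl c' (K'.ψ (y, t)) = K.hl c (K.ψ (y, t + δ)) ∧
      ∀ T, K'.ms T c' (K'.ψ (y, t)) = K.ms T c (K.ψ (y, t + δ)) := by
  have s' := src K' h.J' y
  have s := src K h.J y
  simp only [Nk.rad, Nk.hl, Nk.ms, Nd18.Nk.χ, K.tm_ψ _ s, K'.tm_ψ _ s', K.ext_ψ _ s, K'.ext_ψ _ s',
    K.hρ _ _ s, K'.hρ _ _ s', ← h.cut]
  by_cases k : t ∈ Dp K'.p K'.q 1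
  · have k1 := h.sl k t ⟨by linarith, by linarith⟩
    have k2 : lb (K'.pb c') t = lb (K.pb c) (t + δ) :=
      (lb_congr fun s hs => by rw [h.sl k s hs, sl_shf]).trans (lb_shf _ δ t)
    rw [k1, k2, show c'.Φ (K'.ψ (y, t)) = c.Φ (K.ψ (y, t + δ)) from congrFun (congrArg YC.Φ k1) y]
    exact ⟨rfl, rfl, fun _ => rfl⟩
  · simp only [show K'.cut 1 t = 0 from Nd18.ct_zero k, zero_mul, zero_smul, smul_zero, implies_true,
      and_self]

end nk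

theorem meas_thick {N : Type} [Fintype N] {e : N → En3 κ lam ν} (P : Pz X nc e) {D : ℝ} (hD : 0 < D) :
    P.thick D = {x | ∀ i, ∀ K ∈ P.nk i, K.tm x ∉ K.deep D} ∧ MeasurableSet (P.thick D) := by
  have : P.thick D = {x | ∀ i, ∀ K ∈ P.nk i, K.tm x ∉ K.deep D} := Set.ext fun x =>
    forall_congr' fun i => forall₂_congr fun K _ => (mem_img K fun _ => deep_J K hD).not
  refine ⟨this, IsClosed.measurableSet ?_⟩
  rw [this, ofPred_forall]
  refine isClosed_iInter fun i => ?_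
  cases P.nk i with
  | none => simp
  | some K => simpa using show IsClosed {x | K.tm x ∉ K.deep D} from (isOpen_Jv.preimage K.cont).isClosed_compl

variable {d : Dt κ lam ν} [Fintype d.𝓔] {Sl : Type} [Fintype Sl]

/-- one side of a cut at the time `τ` -/
structure Hf (P : PcS d Sl X nc) (P' : PcS d Sl X' nc') (ε : d.𝓔) (a a' : Sl) (b : Bool)
    (φ : OpenPartialHomeomorph X'.M X.M) (δ : ℝ) (O : d.𝓔 × Sl → Prop) (π : d.𝓔 × Sl → Sl)
    (cc : Fin nc' → Fin nc) (J : Finset d.W) (K : Nk (d.e ε) P.bg) (K' : Nk (d.e ε) P'.bg)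
    (τ : ℝ) : Prop where
  ok : P.OK
  ok' : P'.OK
  H : ∃ r, Half P P' ε a a' b φ δ r O π cc J
  hK : P.nk (ε, a) = some K
  hK' : P'.nk (ε, a') = some K'
  win : Icc (τ - 6) (τ + 6) ⊆ K.J
  out : ∀ j ≠ (ε, a), ¬O j → P.Off j ∨ ∀ K₁ ∈ P.nk j, Disjoint K₁.ψ.target φ.target

variable {P : PcS d Sl X nc} {P' : PcS d Sl X' nc'} {ε : d.𝓔} {a a' : Sl} {b : Bool}
  {φ : OpenPartialHomeomorph X'.M X.M} {δ r : ℝ} {O : d.𝓔 × Sl → Prop} {π : d.𝓔 × Sl → Sl}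
  {cc : Fin nc' → Fin nc} {J : Finset d.W} {K : Nk (d.e ε) P.bg} {K' : Nk (d.e ε) P'.bg} {τ t D : ℝ}
  {x : X'.M} {z : (d.e ε).Y.M × ℝ}

theorem half_nk (H : Half P P' ε a a' b φ δ r O π cc J) (hK : P.nk (ε, a) = some K)
    (hK' : P'.nk (ε, a') = some K') : K'.Inf b ∧
    (if b then K.p = K'.p.map (· + δ) else K.q = K'.q.map (· + δ)) ∧
    (∀ x, x ∈ φ.source ↔ (K'.tm x ∈ K'.J → K'.tm x + δ ∈ K.J)) ∧
    (∀ y t, t ∈ K'.J → t + δ ∈ K.J → φ (K'.ψ (y, t)) = K.ψ (y, t + δ)) ∧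
    ∀ w ∈ J, ∀ x, pm b * K'.tm x ≤ r → P.fo w (φ x) = P'.fo w x := by
  obtain ⟨K₀, h1, K₀', h2, h3, h4, h5, h6, h7⟩ := H.nk
  obtain rfl := Option.some.inj (hK.symm.trans h1)
  obtain rfl := Option.some.inj (hK'.symm.trans h2)
  refine ⟨h3, h4, fun x => ?_, h6, fun w hw x hx => h7 w hw x fun k => ?_⟩
  · rw [h5, mem_ofPred, mem_img K' (sep_subset _ _)]
    simp
  · exact ((mem_img K' inter_subset_left).1 k).2.not_ge hx

/-- a point of the neck of `P` comes from the end of `P'` -/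
theorem half_inv (H : Half P P' ε a a' b φ δ r O π cc J) (hK : P.nk (ε, a) = some K)
    (hK' : P'.nk (ε, a') = some K') (ht : t + δ ∈ K.J) (y : (d.e ε).Y.M) :
    t ∈ K'.J ∧ K'.ψ (y, t) ∈ φ.source ∧ φ (K'.ψ (y, t)) = K.ψ (y, t + δ) := by
  obtain ⟨h1, h2, h3, h4, -⟩ := half_nk H hK hK'
  have k : t ∈ K'.J := deep_zero K' ▸ back h1 h2 (D := 0) (deep_zero K ▸ ht :)
  exact ⟨k, (h3 _).2 fun _ => by rwa [K'.tm_ψ _ (src K' k y)], h4 y t k ht⟩

variable (K' b δ τ) in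
/-- the depth relative to the time of the cut -/
abbrev dep (x : X'.M) : ℝ := pm b * (K'.tm x - (τ - δ))

variable (K' b φ δ τ) in
/-- the pasted configuration -/
def xx (v : (d.e ε).YC) (c : Cfg X.M κ ν) : Cfg X'.M κ ν :=
  mix (fun x => kk b (τ - δ) (K'.tm x)) (c.pb φ) ((fz v).pb K'.ψ.symm)

variable {v : (d.e ε).YC} {c : Cfg X.M κ ν}

theorem xx_at (h : dep b δ K' τ x ≤ 1) : At φ (xx b φ δ K' τ v c) c x := mix_one _ _ (kk_one h)

theorem ev_dep {R : ℝ} (h : dep b δ K' τ x < R) : ∀ᶠ y in 𝓝 x, dep b δ K' τ y < R :=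
  (isOpen_lt (continuous_const.mul (K'.cont.sub continuous_const)) continuous_const).mem_nhds h

theorem xx_ev (h : dep b δ K' τ x < 1) : ∀ᶠ y in 𝓝 x, At φ (xx b φ δ K' τ v c) c y :=
  (ev_dep h).mono fun _ k => xx_at k.le

namespace Hf
variable (h : Hf P P' ε a a' b φ δ O π cc J K K' τ)
include h

theorem lit : P'.bg.Lit P.bg φ := h.H.choose_spec.lit

theorem inf : K'.Inf b := (half_nk h.H.choose_spec h.hK h.hK').1

theorem deep_iff (hD : D ≤ 3) (ht : pm b * (t - (τ - δ)) ≤ 3) : t ∈ K'.deep D ↔ t + δ ∈ K.deep D :=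
  let k := half_nk h.H.choose_spec h.hK h.hK'
  ⟨forth k.1 k.2.1 h.win ht hD, back k.1 k.2.1⟩

theorem J_iff (ht : pm b * (t - (τ - δ)) ≤ 3) : t ∈ K'.J ↔ t + δ ∈ K.J := by
  rw [← deep_zero, ← deep_zero, h.deep_iff (by norm_num) ht]

theorem near (ht : |t - τ| ≤ 3) : t ∈ K.deep 3 := mem_Jv_map.2
  ⟨fun a ha => by linarith [(h.win (left_mem_Icc.2 (by linarith))).1 a ha, (abs_le.1 ht).1],
    fun a ha => by linarith [(h.win (right_mem_Icc.2 (by linarith))).2 a ha, (abs_le.1 ht).2]⟩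

theorem deep_of (ht : -3 ≤ pm b * (t - (τ - δ))) : t ∈ K'.deep 3 := by
  have := pm_sq b
  refine up h.inf (t := τ - δ - 3 * pm b) ((h.deep_iff le_rfl (by nlinarith)).2 (h.near ?_))
    (by nlinarith)
  rw [show τ - δ - 3 * pm b + δ - τ = pm b * (-3) by ring, abs_pm]
  norm_num

theorem tgt (hx : -3 ≤ dep b δ K' τ x) : x ∈ K'.ψ.target :=
  (tm_tgt K').2 (deep_J K' (by norm_num) (h.deep_of hx))

theorem src' (hx : dep b δ K' τ x ≤ 3) : x ∈ φ.source :=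
  ((half_nk h.H.choose_spec h.hK h.hK').2.2.1 x).2 (h.J_iff hx).1

theorem fwd (hz : z.2 ∈ K'.J) (ht : pm b * (z.2 - (τ - δ)) ≤ 3) :
    φ (K'.ψ z) = K.ψ (z.1, z.2 + δ) :=
  (half_nk h.H.choose_spec h.hK h.hK').2.2.2.1 _ _ hz ((h.J_iff ht).1 hz)

/-- the pasted configuration in the coordinates of the end -/
theorem pb_at (hz : z.2 ∈ K'.J) :
    At (fun x => (x.1, x.2 + δ)) (K'.pb (xx b φ δ K' τ v c)) (pst b τ v (K.pb c)) z := by
  have s := K'.mem_src.2 hz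
  rcases le_total (pm b * (z.2 - (τ - δ))) 3 with k | k
  · refine ⟨fun i => ?_, ?_⟩
    · simp only [xx, pst, mix, Cfg.pb, K'.tm_ψ _ s, K'.ψ.left_inv s, kk_sh, h.fwd hz k,
        fz_a v i z, fz_a v i (z.1, z.2 + δ)]
    · simp only [xx, pst, mix, Cfg.pb, K'.tm_ψ _ s, K'.ψ.left_inv s, kk_sh, h.fwd hz k, fz]
  · have := kk_zero (s := b) (τ := τ - δ) (t := z.2) (by linarith)
    refine ⟨fun i => ?_, ?_⟩
    · simp only [xx, pst, mix, Cfg.pb, K'.tm_ψ _ s, K'.ψ.left_inv s, kk_sh, this, zero_mul,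
        fz_a v i z, fz_a v i (z.1, z.2 + δ)]
    · simp only [xx, pst, mix, Cfg.pb, K'.tm_ψ _ s, K'.ψ.left_inv s, kk_sh, this, zero_smul, fz]

theorem sl_pb (ht : t ∈ K'.J) :
    sl (K'.pb (xx b φ δ K' τ v c)) t = sl (pst b τ v (K.pb c)) (t + δ) :=
  YC.ext (funext fun k => funext fun y => (h.pb_at (z := (y, t)) ht).1 (some k))
    (funext fun y => (h.pb_at (z := (y, t)) ht).2)

theorem la_pst' (hc : P.bg.Adm c) (hv : (d.e ε).cyl.Adm (fz v))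
    (hz : pm b * (z.2 - τ) ≤ 2 → z.2 ∈ K.J) : LA (d.e ε).cyl (pst b τ v (K.pb c)) z :=
  la_pst hv fun k => la_ψ K (K.mem_src.2 (hz k)) (.of_adm hc _)

theorem adm (hc : P.bg.Adm c) (hv : (d.e ε).cyl.Adm (fz v)) : P'.bg.Adm (xx b φ δ K' τ v c) :=
  adm_of fun x => by
    rcases lt_or_ge (dep b δ K' τ x) 1 with k | k
    · exact la_φ h.lit (h.src' (by linarith)) (xx_ev k) (.of_adm hc _)
    have t := h.tgt (x := x) (by linarith)
    have s := K'.ψ.map_target t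
    refine la_φ (lit_symm (nk_lit K')) t (c' := K'.pb (xx b φ δ K' τ v c))
      ((K'.ψ.open_target.eventually_mem t).mono fun y hy => ?_)
      (la_sh ((ev_src K' s).mono fun y hy => h.pb_at (K'.mem_src.1 hy)) (h.la_pst' hc hv fun k => ?_))
    · exact ⟨fun i => congrArg _ (K'.ψ.right_inv hy).symm, congrArg _ (K'.ψ.right_inv hy).symm⟩
    · exact (h.J_iff (by rw [← sub_add, sub_add_eq_add_sub]; linarith)).1 (K'.mem_src.1 s)

/-- the other necks -/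
theorem oth {j : d.𝓔 × Sl} (hj : O j) {K₁' : Nk (d.e j.1) P'.bg} (h1 : P'.nk (j.1, π j) = some K₁') :
    P.Off j ∧ P'.Off (j.1, π j) ∨ ∃ K₁ : Nk (d.e j.1) P.bg, P.nk j = some K₁ ∧ K₁.p = K₁'.p ∧
      K₁.q = K₁'.q ∧ ∀ z ∈ K₁'.ψ.source, K₁.ψ z = φ (K₁'.ψ z) ∧ dep b δ K' τ (K₁'.ψ z) < -3 ∧
        ∀ c, At id (K₁'.pb (xx b φ δ K' τ v c)) (K₁.pb c) z := by
  obtain ⟨-, h2, h3 | ⟨K₁, h3, K₀, h4, h5, h6, -, h8⟩⟩ := h.H.choose_spec.oth j hj
  · exact .inl h3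
  obtain rfl := Option.some.inj (h1.symm.trans h4)
  refine .inr ⟨K₁, h3, h5, h6, fun z hz => ?_⟩
  have k : dep b δ K' τ (K₁'.ψ z) < -3 := lt_of_not_ge fun k =>
    disjoint_left.1 (h.ok'.dj h2 K₁' h1 K' h.hK') (K₁'.ψ.map_source hz) (h.tgt k)
  refine ⟨h8 z hz, k, fun c => ?_⟩
  have := xx_at (φ := φ) (v := v) (c := c) (k.le.trans (by norm_num))
  rw [At, ← h8 z hz] at this
  exact this

theorem cases' (j' : d.𝓔 × Sl) : j' = (ε, a') ∨ P'.Off j' ∨ ∃ j, O j ∧ (j.1, π j) = j' :=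
  or_iff_not_imp_left.2 (h.H.choose_spec.sur j')

/-- the preimage of a point of a neck of `P` -/
theorem pre (hx : dep b δ K' τ x ≤ 3) {j : d.𝓔 × Sl} {K₁ : Nk (d.e j.1) P.bg} (h1 : P.nk j = some K₁)
    (ht : φ x ∈ K₁.ψ.target) : P.Off j ∨ (j = (ε, a) ∧ K'.tm x + δ = K₁.tm (φ x) ∧ K'.tm x ∈ K'.J) ∨
      O j ∧ ∃ K₁' : Nk (d.e j.1) P'.bg, P'.nk (j.1, π j) = some K₁' ∧ K₁.p = K₁'.p ∧ K₁.q = K₁'.q ∧
        K₁'.tm x = K₁.tm (φ x) := by
  have s := h.src' hx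
  have t1 := (tm_tgt K₁).1 ht
  have e1 : K₁.ψ ((K₁.ψ.symm (φ x)).1, K₁.tm (φ x)) = φ x := by
    rw [← K₁.snd_symm ht]; exact K₁.ψ.right_inv ht
  by_cases hj : j = (ε, a)
  · subst hj
    obtain rfl := Option.some.inj (h.hK.symm.trans h1)
    obtain ⟨k1, k2, k3⟩ := half_inv h.H.choose_spec h.hK h.hK' (t := K.tm (φ x) - δ)
      (by rwa [sub_add_cancel]) (K.ψ.symm (φ x)).1
    rw [sub_add_cancel, e1] at k3
    have := K'.tm_ψ _ (src K' k1 (K.ψ.symm (φ x)).1)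
    rw [φ.injOn k2 s k3] at this
    exact .inr (.inl ⟨rfl, by rw [this, sub_add_cancel], this ▸ k1⟩)
  by_cases hO : O j
  · obtain ⟨-, -, h3 | ⟨K₀, h3, K₁', h4, h5, h6, h7, h8⟩⟩ := h.H.choose_spec.oth j hO
    · exact .inl h3.1
    obtain rfl := Option.some.inj (h1.symm.trans h3)
    have s1 := src K₁' (show K₁.tm (φ x) ∈ Jv _ _ from h5 ▸ h6 ▸ t1) (K₁.ψ.symm (φ x)).1
    have := K₁'.tm_ψ _ s1
    rw [φ.injOn (h7 (K₁'.ψ.map_source s1)) s ((h8 _ s1).symm.trans e1)] at this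
    exact .inr (.inr ⟨hO, K₁', h4, h5, h6, this⟩)
  · exact (h.out j hj hO).imp id fun k => (disjoint_left.1 (k K₁ h1) ht (φ.map_source s)).elim

theorem thick (h1 : 1 ≤ D) (h3 : D ≤ 3) (hx : x ∈ P'.thick D) :
    dep b δ K' τ x < -3 ∧ φ x ∈ P.thick D := by
  have h0 : 0 < D := by linarith
  rw [(meas_thick _ h0).1] at hx ⊢
  have k : dep b δ K' τ x < -3 := lt_of_not_ge fun k => hx (ε, a') K' h.hK' (mem_Jv_map.2
    ⟨fun a ha => by linarith [(mem_Jv_map.1 (h.deep_of k)).1 a ha],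
      fun a ha => by linarith [(mem_Jv_map.1 (h.deep_of k)).2 a ha]⟩)
  refine ⟨k, fun j K₁ hK ht => ?_⟩
  rcases h.pre (by linarith) hK ((tm_tgt K₁).2 (deep_J K₁ h0 ht)) with
    k1 | ⟨rfl, k1, -⟩ | ⟨-, K₁', k1, k2, k3, k4⟩
  · exact off_deep K₁ h1 (k1 K₁ hK) _ ht
  · obtain rfl := Option.some.inj (h.hK.symm.trans hK)
    exact hx (ε, a') K' h.hK' ((h.deep_iff h3 (by linarith)).2 (k1 ▸ ht))
  · exact hx (j.1, π j) K₁' k1 (by rwa [k4, Nk.deep, ← k2, ← k3])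

/-- sums over the necks -/
theorem sum_eq {V : Type} [AddCommMonoid V] (hx : dep b δ K' τ x ≤ 0)
    (f : ∀ j : d.𝓔 × Sl, Nk (d.e j.1) P.bg → V) (f' : ∀ j : d.𝓔 × Sl, Nk (d.e j.1) P'.bg → V)
    (hf : ∀ j K₁, K₁.χ (φ x) = 0 → f j K₁ = 0) (hf' : ∀ j K₁, K₁.χ x = 0 → f' j K₁ = 0)
    (e : ∀ ε₁ a₁ a₁' K₁ K₁' y t δ₁, Mt K₁ K₁' c (xx b φ δ K' τ v c) t δ₁ → x = K₁'.ψ (y, t) →
      φ x = K₁.ψ (y, t + δ₁) → f' (ε₁, a₁') K₁' = f (ε₁, a₁) K₁) :
    ∑ j, (P'.nk j).elim 0 (f' j) = ∑ j, (P.nk j).elim 0 (f j) := by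
  by_cases k : x ∈ P'.thick 1
  · have k' := (h.thick le_rfl (by norm_num) k).2
    rw [(meas_thick _ one_pos).1] at k k'
    rw [Finset.sum_eq_zero fun j _ => elim_zero fun K₁ h1 => hf' j K₁ (χ_zero' K₁ (k j K₁ h1)),
      Finset.sum_eq_zero fun j _ => elim_zero fun K₁ h1 => hf j K₁ (χ_zero' K₁ (k' j K₁ h1))]
  rw [(meas_thick _ one_pos).1, mem_ofPred] at k
  push Not at k
  obtain ⟨j', K₁', h1, h2⟩ := k
  have t1 := deep_J K₁' one_pos h2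
  have t2 := (tm_tgt K₁').2 t1
  have e1 : x = K₁'.ψ ((K₁'.ψ.symm x).1, K₁'.tm x) := by
    rw [← K₁'.snd_symm t2]; exact (K₁'.ψ.right_inv t2).symm
  rw [sum_nk h.ok'.toOK h1 t2 f' fun j K₂ k => hf' j K₂ (K₂.χ_zero k)]
  have fin : ∀ j (K₁ : Nk (d.e j.1) P.bg) z, P.nk j = some K₁ → z ∈ K₁.ψ.source → φ x = K₁.ψ z →
      ∑ j, (P.nk j).elim 0 (f j) = f j K₁ := fun j K₁ z k1 k2 k3 =>
    sum_nk h.ok.toOK k1 (k3 ▸ K₁.ψ.map_source k2) f fun j K₂ k => hf j K₂ (K₂.χ_zero k)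
  rcases h.cases' j' with rfl | k | ⟨j, k, rfl⟩
  · obtain rfl := Option.some.inj (h.hK'.symm.trans h1)
    have k := half_nk h.H.choose_spec h.hK h.hK'
    have k3 : pm b * (K'.tm x - (τ - δ)) ≤ 3 := hx.trans (by norm_num)
    have k4 := (h.J_iff k3).1 t1
    have k5 := (congrArg φ e1).trans (h.fwd (z := (_, _)) t1 k3)
    rw [fin (ε, a) K _ h.hK (src K k4 _) k5]
    refine e _ _ _ _ _ _ _ δ ⟨t1, k4, ct_eq k.1 k.2.1 h.win k3, fun k6 s hs => ?_⟩ e1 k5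
    rw [h.sl_pb (half_J K' k6 hs), sl_pst]
    have : |pm b * (s - K'.tm x)| ≤ 1 / 2 := by rw [abs_pm, abs_le]; constructor <;> linarith [hs.1, hs.2]
    linarith [(abs_le.1 this).2, show pm b * (s + δ - τ) =
      pm b * (s - K'.tm x) + pm b * (K'.tm x - (τ - δ)) by ring]
  · exact (off_deep K₁' le_rfl (k K₁' h1) _ h2).elim
  · rcases h.oth (v := v) k h1 with k1 | ⟨K₁, k1, k2, k3, k4⟩
    · exact (off_deep K₁' le_rfl (k1.2 K₁' h1) _ h2).elim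
    have k5 : K₁'.tm x + 0 ∈ K₁.J := by rw [add_zero, Nd18.Nk.J, k2, k3]; exact t1
    have k6 : φ x = K₁.ψ ((K₁'.ψ.symm x).1, K₁'.tm x + 0) := by
      rw [add_zero, (k4 _ (src K₁' t1 _)).1, ← e1]
    rw [fin _ K₁ _ k1 (src K₁ k5 _) k6]
    refine e _ _ _ _ _ _ _ 0 ⟨t1, k5, by rw [add_zero, Nd18.Nk.cut, Nd18.Nk.cut, k2, k3],
      fun k7 s hs => ?_⟩ e1 k6
    rw [add_zero]
    exact sl_congr fun y => (k4 _ (src K₁' (half_J K₁' k7 hs) y)).2.2 c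

/-- the equations -/
theorem eqs {q : d.W →₀ ℝ} (hx : dep b δ K' τ x ≤ 0) (hq : ∀ w ∈ q.support, P.fo w (φ x) = P'.fo w x)
    (k : P.bg.eD c (φ x) = (P.pt q).D c (φ x) ∧ P.bg.eC c (φ x) = (P.pt q).C c (φ x)) :
    P'.bg.eD (xx b φ δ K' τ v c) x = (P'.pt q).D (xx b φ δ K' τ v c) x ∧
      P'.bg.eC (xx b φ δ K' τ v c) x = (P'.pt q).C (xx b φ δ K' τ v c) x := by
  have s := h.src' (x := x) (by linarith)
  have ev := xx_ev (φ := φ) (v := v) (c := c) (hx.trans_lt one_pos)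
  rw [eD_φ h.lit s ev, eC_φ h.lit s ev, k.1, k.2]
  refine ⟨(h.sum_eq (v := v) (c := c) hx (fun _ K₁ => K₁.rad c (φ x)) (fun _ K₁ => K₁.rad _ x) (fun _ _ k => ?_)
    (fun _ _ k => ?_) fun _ _ _ _ _ y _ _ m e1 e2 => ?_).symm, congrArg₂ (· + ·)
    (h.sum_eq (v := v) (c := c) hx (fun _ K₁ => K₁.hl c (φ x)) (fun _ K₁ => K₁.hl _ x) (fun _ _ k => ?_)
      (fun _ _ k => ?_) fun _ _ _ _ _ y _ _ m e1 e2 => ?_).symm
    (Finsupp.sum_congr fun w hw => congrArg (q w • ·) (congrArg₂ (· + ·) (hq w hw)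
      (h.sum_eq (v := v) (c := c) hx (fun j K₁ => (d.yt w j.1).elim 0 fun T => K₁.ms T c (φ x))
        (fun j K₁ => (d.yt w j.1).elim 0 fun T => K₁.ms T _ x) (fun _ _ k => ?_) (fun _ _ k => ?_)
        fun _ _ _ _ _ y _ _ m e1 e2 => ?_).symm))⟩
  · rw [Nk.rad, k, zero_mul, zero_smul]
  · rw [Nk.rad, k, zero_mul, zero_smul]
  · rw [e2]; exact (congrArg _ e1).trans (m.terms y).1
  · rw [Nk.hl, Nd18.Nk.ext, k, zero_smul, smul_zero]
  · rw [Nk.hl, Nd18.Nk.ext, k, zero_smul, smul_zero]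
  · rw [e2]; exact (congrArg _ e1).trans (m.terms y).2.1
  · exact elim_zero fun T _ => by rw [Nk.ms, Nd18.Nk.ext, k, zero_smul, smul_zero]
  · exact elim_zero fun T _ => by rw [Nk.ms, Nd18.Nk.ext, k, zero_smul, smul_zero]
  · rw [e2]; exact elim_congr fun T _ => (congrArg _ e1).trans ((m.terms y).2.2 T)

end Hf

end Crest.Agent.X212.Cut71
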