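import Crest.Agent.X212.Cut71.Lit
import Crest.Agent.X212.Win39.Lv
import Crest.Agent.X212.Sep15.Mono

/-!
# Row 212, SW-CUT (helper71): pasting on the cylinder, tails, Sobolev on windows, centring
-/

set_option autoImplicit false
set_option linter.unusedSectionVars false
noncomputable section
open scoped Manifold ContDiff Topology InnerProductSpace ENNReal
open MeasureTheory Set Function Filter

namespace Crest.Agent.X212.Cut71
open An Sw Sob92 Cyf70 Sw.En3 Pb50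
open Wz78 (SA)
open M (Mf pm)
open Nd18 (BD ct Dp Jv)
open Neck67 (Lb cL)
open Real (smoothTransition)

variable {κ lam ν : Type} [Fintype κ] [Fintype lam] [Fintype ν] [DecidableEq ν]

theorem pm_not (s : Bool) : pm (!s) = -pm s := by cases s <;> simp [pm]

theorem pm_sq (s : Bool) : pm s * pm s = 1 := by cases s <;> simp [pm]

theorem abs_pm (s : Bool) (t : ℝ) : |pm s * t| = |t| := by cases s <;> simp [pm]

/-- `1` up to the time `1` after `τ`, `0` from the time `2` on -/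
def kk (s : Bool) (τ t : ℝ) : ℝ := 1 - smoothTransition (pm s * (t - τ) - 1)

section kk
variable {s : Bool} {τ t : ℝ}

theorem kk_one (h : pm s * (t - τ) ≤ 1) : kk s τ t = 1 := by
  rw [kk, smoothTransition.zero_of_nonpos (by linarith), sub_zero]

theorem kk_zero (h : 2 ≤ pm s * (t - τ)) : kk s τ t = 0 := by
  rw [kk, smoothTransition.one_of_one_le (by linarith), sub_self]

theorem kk_mem : kk s τ t ∈ Icc (0 : ℝ) 1 :=
  ⟨sub_nonneg.2 (smoothTransition.le_one _), sub_le_self _ (smoothTransition.nonneg _)⟩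

theorem kk_sh (δ : ℝ) : kk s τ (t + δ) = kk s (τ - δ) t := by
  rw [kk, kk, show t + δ - τ = t - (τ - δ) by ring]

theorem bd_kk : ∃ C, ∀ s τ, BD (kk s τ) C := by
  obtain ⟨C, h⟩ := Nd18.bd_st
  refine ⟨fun k => |1| + 2 ^ k * (|-1| * C k), fun s τ => ?_⟩
  · have k : BD (fun t => smoothTransition (pm s * (t - τ) - 1)) C := by
      cases s
      · simpa [pm, sub_eq_add_neg, add_assoc, add_comm, add_left_comm] using h.refl (τ - 1)
      · simpa [pm, sub_eq_add_neg, add_assoc] using h.shift (-τ - 1)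
    convert (BD.const 1).add ((BD.const (-1)).mul k) using 1
    exact funext fun t => by rw [kk]; ring

theorem sm_kk : ContDiff ℝ ∞ (kk s τ) := (bd_kk.choose_spec s τ).1

end kk

/-- interpolation -/
def mix {A : Type} (k : A → ℝ) (c c' : Cfg A κ ν) : Cfg A κ ν :=
  ⟨fun i x => c'.a i x + k x * (c.a i x - c'.a i x), fun x => c'.Φ x + k x • (c.Φ x - c'.Φ x)⟩

theorem mix_one {A : Type} {k : A → ℝ} (c c' : Cfg A κ ν) {x : A} (h : k x = 1) :
    At id (mix k c c') c x := ⟨fun i => by simp [mix, h], by simp [mix, h]⟩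

theorem mix_zero {A : Type} {k : A → ℝ} (c c' : Cfg A κ ν) {x : A} (h : k x = 0) :
    At id (mix k c c') c' x := ⟨fun i => by simp [mix, h], by simp [mix, h]⟩

theorem norm_mix {A : Type} {k : A → ℝ} {c c' : Cfg A κ ν} {x : A} {C : ℝ} (h : k x ∈ Icc (0 : ℝ) 1)
    (h1 : k x = 0 ∨ ‖c.Φ x‖ ≤ C) (h2 : ‖c'.Φ x‖ ≤ C) : ‖(mix k c c').Φ x‖ ≤ C := by
  rcases h1 with h1 | h1
  · rwa [(mix_zero c c' h1).2]
  · simpa [mix] using (convex_closedBall (0 : Eu ν) C).add_smul_sub_mem (by simpa using h2)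
      (by simpa using h1) h

variable {e : En3 κ lam ν} {c c' : e.ZC} {v : e.YC} {s : Bool} {τ t δ : ℝ} {x : e.Y.M × ℝ}
  {I I' : Set ℝ}

theorem la_congr (h : ∀ᶠ y in 𝓝 x, At id c c' y) (k : LA e.cyl c' x) : LA e.cyl c x where
  sa i := (k.sa i).congr_of_eventuallyEq (h.mono fun _ h => h.1 i)
  sΦ := k.sΦ.congr_of_eventuallyEq (h.mono fun _ h => h.2)
  pa i := by simpa only [h.self_of_nhds.1, id] using k.pa i
  pΦ := by simpa only [h.self_of_nhds.2, id] using k.pΦ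

theorem la_mix {k : e.Y.M × ℝ → ℝ} (hk : SA (IC e.Y.I) k x) (h : LA e.cyl c x) (h' : LA e.cyl c' x) :
    LA e.cyl (mix k c c') x where
  sa i := (h'.sa i).add (Wz78.SA.mul hk ((h.sa i).sub (h'.sa i)))
  sΦ := h'.sΦ.add (hk.smul (h.sΦ.sub h'.sΦ))
  pa i := by
    simp only [mix, mul_add, mul_sub, Finset.sum_add_distrib, Finset.sum_sub_distrib,
      mul_left_comm _ (k x), ← Finset.mul_sum, h.pa, h'.pa]
  pΦ := by simp only [mix, map_add, map_smul, map_sub, h.pΦ, h'.pΦ]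

theorem sl_congr (h : ∀ y, At id c c' (y, t)) : sl c t = sl c' t :=
  YC.ext (funext fun k => funext fun y => (h y).1 (some k)) (funext fun y => (h y).2)

theorem sl_fz (v : e.YC) (t : ℝ) : sl (fz v) t = v := rfl

/-- `v` pasted in after the time `τ + 1` -/
def pst (s : Bool) (τ : ℝ) (v : e.YC) (c : e.ZC) : e.ZC := mix (fun x => kk s τ x.2) c (fz v)

theorem sl_pst (h : pm s * (t - τ) ≤ 1) : sl (pst s τ v c) t = sl c t :=
  sl_congr fun _ => mix_one _ _ (kk_one h)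

theorem sl_pst' (h : 2 ≤ pm s * (t - τ)) : sl (pst s τ v c) t = v :=
  sl_congr (c' := fz v) fun _ => mix_zero _ _ (kk_zero h)

theorem ev_lt {a : ℝ} (h : pm s * (x.2 - τ) < a) : ∀ᶠ y in 𝓝 x, pm s * (y.2 - τ) < a :=
  (isOpen_lt (by fun_prop) continuous_const).mem_nhds h

theorem ev_gt {a : ℝ} (h : a < pm s * (x.2 - τ)) : ∀ᶠ y in 𝓝 x, a < pm s * (y.2 - τ) :=
  (isOpen_lt continuous_const (by fun_prop)).mem_nhds h

theorem la_pst (hv : e.cyl.Adm (fz v)) (h : pm s * (x.2 - τ) ≤ 2 → LA e.cyl c x) :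
    LA e.cyl (pst s τ v c) x := by
  rcases le_or_gt (pm s * (x.2 - τ)) 2 with k | k
  · exact la_mix (sm_snd sm_kk x) (h k) (.of_adm hv x)
  · exact la_congr ((ev_gt k).mono fun y hy => mix_zero _ _ (kk_zero hy.le)) (.of_adm hv x)

theorem opn (hI : IsOpen I) : IsOpen ((univ : Set e.Y.M) ×ˢ I) := isOpen_univ.prod hI

theorem cl_mono {k k' : ℕ} {η η' : ℝ} (h : Cl c c' I k η) (h1 : I' ⊆ I) (h2 : k' ≤ k) (h3 : η ≤ η') :
    Cl c c' I' k' η' := fun w hw x hx =>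
  let j := h w (hw.trans h2) x ⟨trivial, h1 hx.2⟩
  ⟨fun i => (j.1 i).trans h3, j.2.trans h3⟩

/-- pasting keeps closeness -/
theorem pst_cl (k : ℕ) : ∃ C > 0, ∀ (s : Bool) (τ : ℝ) (v : e.YC) (c : e.ZC) (I : Set ℝ) (η : ℝ),
    IsOpen I → 0 ≤ η → e.cyl.Adm (fz v) → (∀ x ∈ univ ×ˢ I, LA e.cyl c x) → Cl c (fz v) I k η →
    Cl (pst s τ v c) (fz v) I k (C * η) := by
  obtain ⟨C, hC⟩ := bd_kk
  refine ⟨2 ^ k * |C k| + 1, by positivity, fun s τ v c I η hI h0 hv hc h w hw x hx => ?_⟩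
  have k1 := (hC s τ).cyl e.D.F.toPre
  have k2 : Lb e.D.Z.toPre (univ ×ˢ I) k (fun x => kk s τ x.2) (C k) := .of_CB k1.1 (k1.2 k)
  have k3 : 2 ^ k * |C k| * |η| ≤ (2 ^ k * |C k| + 1) * η := by rw [abs_of_nonneg h0]; linarith
  refine ⟨fun i => ?_, ?_⟩
  · have := (k2.smul (opn hI) (Lb.of_Dw (f := c.a i - (fz v).a i)
      (fun x hx => ((hc x hx).sa i).sub (hv.sa i x)) fun w hw x hx => (h w hw x hx).1 i)).Dw w hw x hx
    rw [show (pst s τ v c).a i - (fz v).a i = fun x => kk s τ x.2 • (c.a i - (fz v).a i) x from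
      funext fun x => add_sub_cancel_left _ _]
    exact this.trans k3
  · have := (k2.smul (opn hI) (Lb.of_Dw (f := c.Φ - (fz v).Φ)
      (fun x hx => (hc x hx).sΦ.sub (hv.sΦ x)) fun w hw x hx => (h w hw x hx).2)).Dw w hw x hx
    rw [show (pst s τ v c).Φ - (fz v).Φ = fun x => kk s τ x.2 • (c.Φ - (fz v).Φ) x from
      funext fun x => add_sub_cancel_left _ _]
    exact this.trans k3

/-- levels near a critical point -/
theorem lev (he : e.OK) (hv : Crit v) {ε : ℝ} (hε : 0 < ε) : ∃ η > 0, ∀ (c : e.ZC) (I : Set ℝ),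
    IsOpen I → (∀ x ∈ univ ×ˢ I, LA e.cyl c x) → Cl c (fz v) I 1 η → ∀ t ∈ I,
      |L (sl c t) - L v| ≤ ε ∧ |nm (sl c t) - nm v| ≤ ε ∧ gn (sl c t) ≤ ε := by
  obtain ⟨η, h0, h⟩ := Win39.cont1 he hv.1 hε
  refine ⟨η, h0, fun c I hI hc k t ht => ?_⟩
  obtain ⟨h1, h2, h3⟩ := h _ (Win39.adm_sl hI (admOn_of hc) ht)
    (Win39.jt_cl hI (admOn_of hc) hv.1 k ht)
  exact ⟨h1, h2, by simpa [Win39.gn_crit hv] using (le_abs_self _).trans h3⟩

/-! ### tails -/

/-- the density of the distance to `v` -/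
def tld (c : e.ZC) (v : e.YC) (w : List (Option κ)) (x : e.Y.M × ℝ) : ℝ≥0∞ :=
  ∑ i, ‖e.D.Z.Dw w (c.a i - (fz v).a i) x‖ₑ ^ 2 + ‖e.D.Z.Dw w (c.Φ - (fz v).Φ) x‖ₑ ^ 2

/-- the distance to `v` over the times `I` -/
def tlz (c : e.ZC) (v : e.YC) (I : Set ℝ) (w : List (Option κ)) : ℝ≥0∞ :=
  ∫⁻ x in univ ×ˢ I, tld c v w x ∂e.D.Z.μ

variable {w : List (Option κ)}

theorem tlz_mono (h : I ⊆ I') : tlz c v I w ≤ tlz c v I' w :=
  lintegral_mono_set (prod_mono_right h)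

theorem tld_sh (h : ∀ᶠ y in 𝓝 x, At (fun x => (x.1, x.2 + δ)) c c' y) :
    tld c v w x = tld c' v w (x.1, x.2 + δ) := by
  have h1 : ∀ i, e.D.Z.Dw w (c.a i - (fz v).a i) x = e.D.Z.Dw w (c'.a i - (fz v).a i) (x.1, x.2 + δ) :=
    fun i => Dw_sh δ w (h.mono fun y hy => by
      rw [Pi.sub_apply, hy.1, Pi.sub_apply, fz_a v i y, fz_a v i (y.1, y.2 + δ)])
  have h2 : e.D.Z.Dw w (c.Φ - (fz v).Φ) x = e.D.Z.Dw w (c'.Φ - (fz v).Φ) (x.1, x.2 + δ) :=
    Dw_sh δ w (h.mono fun y hy => by rw [Pi.sub_apply, hy.2]; rfl)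
  simp only [tld, h1, h2]

theorem lint_sh (hI : MeasurableSet I) (hI' : MeasurableSet I') (hm : ∀ t ∈ I, t + δ ∈ I')
    (g : e.Y.M × ℝ → ℝ≥0∞) :
    ∫⁻ x in univ ×ˢ I, g (x.1, x.2 + δ) ∂e.D.Z.μ ≤ ∫⁻ x in univ ×ˢ I', g x ∂e.D.Z.μ :=
  lint_iso (sH_lit δ).iso (.prod .univ hI) (.prod .univ hI') (subset_univ _)
    (fun _ hx => ⟨trivial, hm _ hx.2⟩) g

theorem tlz_sh (hI : IsOpen I) (hI' : MeasurableSet I') (hm : ∀ t ∈ I, t + δ ∈ I')
    (h : ∀ x ∈ univ ×ˢ I, At (fun x => (x.1, x.2 + δ)) c c' x) : tlz c v I w ≤ tlz c' v I' w :=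
  (setLIntegral_congr_fun (opn hI).measurableSet fun _ hx =>
    tld_sh (((opn hI).eventually_mem hx).mono h)).le.trans (lint_sh hI.measurableSet hI' hm _)

theorem hh_sh {V : Type} [NormedAddCommGroup V] [NormedSpace ℝ V] {f g : e.Y.M × ℝ → V}
    (hI : IsOpen I) (hm : ∀ t ∈ I, t + δ ∈ I') (h : ∀ x ∈ univ ×ˢ I, f x = g (x.1, x.2 + δ))
    (k : Hh e.D.Z.toPre (univ ×ˢ I') g) : Hh e.D.Z.toPre (univ ×ˢ I) f := fun w =>
  ((((mp_sH δ).integrableOn_comp_preimage (sH e δ).measurableEmbedding).2 (k w)).mono_set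
    fun _ hx => ⟨trivial, hm _ hx.2⟩).congr_fun (fun x hx => by
      simp only [comp_apply, Dw_sh δ w (((opn hI).eventually_mem hx).mono h), sH_apply])
    (opn hI).measurableSet

theorem tld_fz (h : ∀ᶠ y in 𝓝 x, At id c (fz v) y) : tld c v w x = 0 := by
  have : ∀ {V : Type} [NormedAddCommGroup V] [NormedSpace ℝ V] (w : List (Option κ)),
      e.D.Z.Dw w (0 : e.Y.M × ℝ → V) = 0 := fun {V} _ _ w => by
    induction w with
    | nil => rfl
    | cons a w ih => rw [Pre.Dw, show e.D.Z.D a 0 = 0 from funext fun _ => Mp86.dv_const (0 : V), ih]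
  rw [tld_sh (δ := 0) (c' := fz v) (h.mono fun y hy => by simp only [add_zero]; exact hy)]
  simp [tld, this]

theorem tlz_cl {k : ℕ} {η : ℝ} (hI : MeasurableSet I) (h : Cl c (fz v) I k η) (hw : w.length ≤ k) :
    tlz c v I w ≤ (Fintype.card (Option κ) + 1) * ENNReal.ofReal η ^ 2 * (e.D.F.μ univ * volume I) := by
  refine (setLIntegral_mono' (.prod .univ hI) (g := fun _ => (Fintype.card (Option κ) + 1) *
    ENNReal.ofReal η ^ 2) fun x hx => ?_).trans ?_
  · have k1 : ∀ {V : Type} [NormedAddCommGroup V] {a : V}, ‖a‖ ≤ η → ‖a‖ₑ ^ 2 ≤ ENNReal.ofReal η ^ 2 :=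
      fun h => by rw [← ofReal_norm]; gcongr
    rw [add_mul, one_mul]
    exact add_le_add ((Finset.sum_le_sum fun i _ => k1 ((h w hw x hx).1 i)).trans (by simp))
      (k1 (h w hw x hx).2)
  · rw [setLIntegral_const]
    exact le_of_eq (congrArg _ (Measure.prod_prod _ _))

/-- the tail of the pasted configuration -/
theorem tlz_pst (w : List (Option κ)) (R : ℝ) {η : ℝ} (h0 : 0 < η) : ∃ η' > 0, ∀ (s : Bool) (τ : ℝ)
    (v : e.YC) (c : e.ZC), Cl (pst s τ v c) (fz v) (Ioo (τ - (|R| + 3)) (τ + (|R| + 3))) w.length η' →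
    tlz (pst s τ v c) v {t | -R < pm s * (t - τ)} w ≤ ENNReal.ofReal η := by
  have : Tendsto (fun a : ℝ => (Fintype.card (Option κ) + 1) * ENNReal.ofReal a ^ 2 *
      (e.D.F.μ univ * ENNReal.ofReal (2 * (|R| + 3)))) (𝓝[>] 0) (𝓝 0) := by
    have h1 : Tendsto (fun a : ℝ => ENNReal.ofReal a ^ 2) (𝓝[>] 0) (𝓝 0) := by
      simpa [comp_def] using ((ENNReal.continuous_pow 2).comp ENNReal.continuous_ofReal).continuousAt.tendsto
        (x := 0) |>.mono_left nhdsWithin_le_nhds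
    simpa only [mul_zero, zero_mul] using ENNReal.Tendsto.mul_const (ENNReal.Tendsto.const_mul
      (a := (Fintype.card (Option κ) + 1 : ℝ≥0∞)) h1 (.inr (by simp))) (.inr (ENNReal.mul_ne_top
        (isCompact_univ.measure_lt_top (μ := e.D.F.μ)).ne (ENNReal.ofReal_ne_top (r := 2 * (|R| + 3)))))
  obtain ⟨η', h1, h2⟩ := ((this.eventually (ge_mem_nhds (ENNReal.ofReal_pos.2 h0))).and
    self_mem_nhdsWithin).exists
  refine ⟨η', h2, fun s τ v c h => ?_⟩
  have o : IsOpen {t | 2 < pm s * (t - τ)} := isOpen_lt continuous_const (by fun_prop)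
  calc _ ≤ tlz (pst s τ v c) v (Ioo (τ - (|R| + 3)) (τ + (|R| + 3)) ∪ {t | 2 < pm s * (t - τ)}) w :=
        tlz_mono fun t ht => by
          refine or_iff_not_imp_right.2 fun k => ?_
          have k1 : |pm s * (t - τ)| < |R| + 3 := abs_lt.2 ⟨by linarith [mem_ofPred.1 ht, le_abs_self R],
            by linarith [not_lt.1 fun h => k (mem_ofPred.2 h), abs_nonneg R]⟩
          rw [abs_pm, abs_lt] at k1
          exact ⟨by linarith, by linarith⟩
    _ ≤ _ := by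
        rw [tlz, prod_union]
        refine (lintegral_union_le _ _ _).trans ?_
        rw [setLIntegral_congr_fun (opn o).measurableSet (g := fun _ => 0) fun x hx =>
          tld_fz (c := pst s τ v c) (v := v) (w := w) ((ev_gt hx.2).mono fun y hy => mix_zero _ _ (kk_zero hy.le)), lintegral_zero, add_zero]
        refine (tlz_cl measurableSet_Ioo h le_rfl).trans ?_
        rwa [Real.volume_Ioo, show τ + (|R| + 3) - (τ - (|R| + 3)) = 2 * (|R| + 3) by ring]

/-- tails of convergent configurations -/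
theorem tlz_tendsto {T : ℝ} (hI : MeasurableSet I)
    (h1 : ∀ i, Hh e.D.Z.toPre (univ ×ˢ (I ∩ {t | T < pm s * t})) fun x => c.a i x - (fz v).a i x)
    (h2 : Hh e.D.Z.toPre (univ ×ˢ (I ∩ {t | T < pm s * t})) fun x => c.Φ x - v.Φ x.1)
    (w : List (Option κ)) :
    Tendsto (fun n : ℕ => tlz c v (I ∩ {t | T + n < pm s * t}) w) atTop (𝓝 0) := by
  have m : ∀ T, MeasurableSet ((univ : Set e.Y.M) ×ˢ (I ∩ {t | T < pm s * t})) := fun T =>
    .prod .univ (hI.inter (measurableSet_lt measurable_const (by fun_prop)))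
  have k : ∀ {V : Type} [NormedAddCommGroup V] {f : e.Y.M × ℝ → V} {O : Set (e.Y.M × ℝ)},
      IntegrableOn (fun x => ‖f x‖ ^ 2) O e.D.Z.μ → AEMeasurable (fun x => ‖f x‖ₑ ^ 2)
        (e.D.Z.μ.restrict O) ∧ ∫⁻ x in O, ‖f x‖ₑ ^ 2 ∂e.D.Z.μ ≠ ⊤ := fun h => by
    simpa using And.intro h.1.enorm h.2.ne
  have k1 : tlz c v (I ∩ {t | T < pm s * t}) w ≠ ⊤ :=
    ((lintegral_add_right' _ (k (h2 w)).1).trans (congrArg (· + _)
      (lintegral_finsetSum' _ fun i _ => (k (h1 i w)).1))).trans_ne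
      (ENNReal.add_ne_top.2 ⟨ENNReal.sum_ne_top.2 fun i _ => (k (h1 i w)).2, (k (h2 w)).2⟩)
  have := tendsto_measure_iInter_atTop (μ := e.D.Z.μ.withDensity (tld c v w))
    (s := fun n : ℕ => (univ : Set e.Y.M) ×ˢ (I ∩ {t | T + n < pm s * t}))
    (fun n => (m _).nullMeasurableSet) (fun n n' h x hx => ⟨trivial, hx.2.1, by
      have : (n : ℝ) ≤ n' := by exact_mod_cast h
      exact lt_of_le_of_lt (b := T + n') (by linarith) hx.2.2⟩) ⟨0, by rw [withDensity_apply _ (m _)]; simpa [tlz] using k1⟩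
  simp only [comp_def, withDensity_apply _ (m _)] at this
  rwa [show (⋂ n : ℕ, (univ : Set e.Y.M) ×ˢ (I ∩ {t | T + n < pm s * t})) = ∅ from
    eq_empty_of_forall_notMem fun x hx => by
      obtain ⟨n, hn⟩ := exists_nat_gt (pm s * x.2 - T)
      linarith [mem_ofPred.1 (mem_iInter.1 hx n).2.2], measure_empty] at this

/-- Sobolev on a window -/
theorem sup_win (he : e.OK) : ∃ C > 0, ∀ (V : Type) [NormedAddCommGroup V] [NormedSpace ℝ V]
    (f : e.Y.M × ℝ → V) (s A : ℝ), 0 ≤ A → (∀ x ∈ univ ×ˢ Ioo (s - 4) (s + 4), SA (IC e.Y.I) f x) →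
    (∀ w : List (Option κ), w.length ≤ 4 →
      ∫⁻ x in univ ×ˢ Ioo (s - 4) (s + 4), ‖e.D.Z.Dw w f x‖ₑ ^ 2 ∂e.D.Z.μ ≤ ENNReal.ofReal A) →
    ∀ x ∈ univ ×ˢ win s, ‖f x‖ ^ 2 ≤ C * A := by
  obtain ⟨C₀, hT⟩ := he.cyl.tame
  obtain ⟨C, hC⟩ := Nd18.bd_ct
  let n := Fintype.card (Option κ)
  refine ⟨|C₀ 0| * ((cK (Option κ) 4 * C 4) ^ 2 * cL n 4) + 1,
    by have := Neck67.one_le_cL n 4; positivity, fun V _ _ f s A hA hf h x hx => ?_⟩
  let β : ℝ → e.Y.M × ℝ → ℝ := fun d x => ct (some (s - 4)) (some (s + 4)) d x.2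
  have b1 : ∀ d, e.D.Z.CBs (β d) C := fun d => (hC _ _ d).cyl e.D.F.toPre
  have b2 : ∀ d, tsupport (β d) ⊆ univ ×ˢ Icc (s - 4 + d) (s + 4 - d) := fun d =>
    closure_minimal (fun x hx => ⟨trivial, by
      by_contra k
      exact hx (Nd18.ct_zero fun h => k ⟨h.1 _ rfl, h.2 _ rfl⟩)⟩) (isClosed_univ.prod isClosed_Icc)
  have b3 : ∀ d x, x.2 ∈ Icc (s - 4 + (d + 1)) (s + 4 - (d + 1)) → β d x = 1 := fun d x hx =>
    Nd18.ct_one ⟨fun _ h => Option.some.inj h ▸ hx.1, fun _ h => Option.some.inj h ▸ hx.2⟩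
  let g : e.Y.M × ℝ → V := fun x => β (1 / 2) x • f x
  have g1 : Sm (IC e.Y.I) g := Neck67.sm_bil_on ((ContinuousLinearMap.lsmul ℝ ℝ).flip) hf (b1 _).1
    ((b2 _).trans (prod_mono_right (Icc_subset_Ioo (by linarith) (by linarith))))
  have hc : ∀ d (u : e.Y.M × ℝ → V), HasCompactSupport fun x => β d x • u x := fun d u =>
    hcs_bil_left (ContinuousLinearMap.lsmul ℝ ℝ) u
      ((isCompact_univ.prod isCompact_Icc).of_isClosed_subset (isClosed_tsupport _) (b2 d))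
  let S : Set (e.Y.M × ℝ) := univ ×ˢ Ioo (s - 5 / 2) (s + 5 / 2)
  have hS : IsOpen S := opn isOpen_Ioo
  have g2 : ∀ x ∈ S, g =ᶠ[𝓝 x] f := fun x hx => (hS.eventually_mem hx).mono fun y hy => by
    simp only [g, b3 (1 / 2) y ⟨by linarith [hy.2.1], by linarith [hy.2.2]⟩, one_smul]
  have key : ∀ (k : ℕ) (u : e.Y.M × ℝ → V), Sm (IC e.Y.I) u → (∀ w : List (Option κ), w.length ≤ k →
      ∫⁻ x in S, ‖e.D.Z.Dw w u x‖ₑ ^ 2 ∂e.D.Z.μ ≤ ENNReal.ofReal A) →
      NS e.D.Z.toPre S k u ≤ cL n k * A := by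
    have h0 : ∀ u : e.Y.M × ℝ → V, Sm (IC e.Y.I) u →
        ∫⁻ x in S, ‖u x‖ₑ ^ 2 ∂e.D.Z.μ ≤ ENNReal.ofReal A → ∫ x in S, ‖u x‖ ^ 2 ∂e.D.Z.μ ≤ A :=
      fun u hu h => by
        rw [integral_eq_lintegral_of_nonneg_ae (.of_forall fun _ => sq_nonneg _)
          (hu.continuous.norm.pow 2).aestronglyMeasurable]
        refine ENNReal.toReal_le_of_le_ofReal hA ?_
        simpa only [ENNReal.ofReal_pow (norm_nonneg _), ofReal_norm] using h
    intro k
    induction k with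
    | zero => exact fun u hu h => (h0 u hu (h [] le_rfl)).trans (one_mul A).ge
    | succ k ih =>
      intro u hu h
      refine (add_le_add (h0 u hu (h [] (by simp))) (Finset.sum_le_sum fun a _ =>
        ih _ (e.D.Z.sm_D hu a) fun w hw => h (a :: w) (by simpa using hw))).trans ?_
      have := mul_nonneg (mul_nonneg n.cast_nonneg (zero_le_one.trans (Neck67.one_le_cL n k))) hA
      simp only [Finset.sum_const, Finset.card_univ, nsmul_eq_mul, cL]
      nlinarith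
  have k1 := (Sob92.Sup.of_tame hT).sq_le ((b1 2).1.smul g1) (hc 2 g) x
  have k2 := NS_smul (S := S) (b1 2).1 g1 ((b1 2).2 4) (FL_FS (FL_of_hcs 4 g1 (hc _ f)) S)
  have k3 := key 4 g g1 fun w hw => (setLIntegral_congr_fun hS.measurableSet fun x hx => by
    simp only [(Dw_congr (F := e.D.Z.toPre) w (g2 x hx)).self_of_nhds]).le.trans
      ((lintegral_mono_set (prod_mono_right (Ioo_subset_Ioo (by linarith) (by linarith)))).trans (h w hw))
  rw [NS_of_tsupport 4 ((tsupport_smul_subset_left _ _).trans ((b2 2).trans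
    (prod_mono_right (Icc_subset_Ioo (by linarith) (by linarith)))))] at k2
  have hx' : x ∈ S := ⟨trivial, by linarith [hx.2.1], by linarith [hx.2.2]⟩
  simp only [Pi.smul_apply', b3 2 x ⟨by linarith [hx.2.1], by linarith [hx.2.2]⟩, one_smul,
    (g2 x hx').self_of_nhds] at k1
  refine k1.trans ((mul_le_mul_of_nonneg_left (k2.2.trans (mul_le_mul_of_nonneg_left k3
    (sq_nonneg _))) (abs_nonneg _)).trans ?_)
  nlinarith

theorem Dw_append {V : Type} [NormedAddCommGroup V] [NormedSpace ℝ V] (w w' : List (Option κ))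
    (f : e.Y.M × ℝ → V) : e.D.Z.Dw (w ++ w') f = e.D.Z.Dw w' (e.D.Z.Dw w f) := by
  induction w generalizing f with
  | nil => rfl
  | cons a w ih => exact ih _

theorem sa_Dw {V : Type} [NormedAddCommGroup V] [NormedSpace ℝ V] (w : List (Option κ))
    {f : e.Y.M × ℝ → V} (h : SA (IC e.Y.I) f x) : SA (IC e.Y.I) (e.D.Z.Dw w f) x := by
  induction w generalizing f with
  | nil => exact h
  | cons a w ih => exact ih (sa_D _ h a)

/-- small tails are uniformly small -/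
theorem cl_of_tlz (he : e.OK) (k : ℕ) {η : ℝ} (h0 : 0 < η) : ∃ η' > 0, ∀ (c : e.ZC) (v : e.YC) (s : ℝ),
    e.cyl.Adm (fz v) → (∀ x ∈ univ ×ˢ Ioo (s - 4) (s + 4), LA e.cyl c x) →
    (∀ w : List (Option κ), w.length ≤ k + 4 → tlz c v (Ioo (s - 4) (s + 4)) w ≤ ENNReal.ofReal η') →
    Cl c (fz v) (win s) k η := by
  obtain ⟨C, hC, h⟩ := sup_win he
  have k0 : 0 < η ^ 2 / C := by positivity
  have k1 : ∀ {a : ℝ}, a ^ 2 ≤ C * (η ^ 2 / C) → |a| ≤ η := fun h =>
    abs_le_of_sq_le_sq (by rwa [mul_div_cancel₀ _ hC.ne'] at h) h0.le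
  refine ⟨_, k0, fun c v s hv hc ht w hw x hx => ⟨fun i => ?_, ?_⟩⟩
  · refine (abs_abs _).ge.trans (k1 (h ℝ _ s _ k0.le
      (fun x hx => sa_Dw w (((hc x hx).sa i).sub (hv.sa i x))) (fun w' hw' => ?_) x hx))
    refine le_trans (lintegral_mono fun x => ?_) (ht (w ++ w') (by simp; omega))
    rw [← Dw_append]
    exact (Finset.single_le_sum (f := fun i => ‖e.D.Z.Dw (w ++ w') (c.a i - (fz v).a i) x‖ₑ ^ 2)
      (fun _ _ => zero_le) (Finset.mem_univ i)).trans le_self_add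
  · refine (abs_norm _).ge.trans (k1 (h _ _ s _ k0.le
      (fun x hx => sa_Dw w ((hc x hx).sΦ.sub (hv.sΦ x))) (fun w' hw' => ?_) x hx))
    refine le_trans (lintegral_mono fun x => ?_) (ht (w ++ w') (by simp; omega))
    rw [← Dw_append]
    exact le_add_self

/-! ### energy -/

theorem en_sh (hI : MeasurableSet I) (hm : ∀ t ∈ I, t + δ ∈ I')
    (h : ∀ t ∈ I, sl c t = sl c' (t + δ)) : en c I ≤ en c' I' := by
  rw [en, setLIntegral_congr_fun hI fun t ht => by rw [h t ht]]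
  exact (lintegral_mono_set hm).trans ((measurePreserving_add_right volume δ).setLIntegral_comp_preimage_emb
    (Homeomorph.addRight δ).measurableEmbedding (fun t => ENNReal.ofReal (gn (sl c' t))) I').le

theorem en_pst (hv : Crit v) {ε : ℝ} (h : ∀ t ∈ Ioo (τ - 3) (τ + 3), gn (sl (pst s τ v c) t) ≤ ε)
    (hI : MeasurableSet I) : en (pst s τ v c) I ≤
      en c (I ∩ {t | pm s * (t - τ) ≤ 1}) + ENNReal.ofReal ε * 6 := by
  have m : MeasurableSet {t | pm s * (t - τ) ≤ 1} := measurableSet_le (by fun_prop) measurable_const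
  have m' : MeasurableSet {t | 2 ≤ pm s * (t - τ)} := measurableSet_le measurable_const (by fun_prop)
  calc _ ≤ en (pst s τ v c) (I ∩ {t | pm s * (t - τ) ≤ 1} ∪
        (Ioo (τ - 3) (τ + 3) ∪ {t | 2 ≤ pm s * (t - τ)})) := Sep15.S.en_mono _ fun t ht => by
        rcases le_or_gt (pm s * (t - τ)) 1 with k | k
        · exact .inl ⟨ht, k⟩
        refine .inr (or_iff_not_imp_right.2 fun k' => ?_)
        have k1 : |pm s * (t - τ)| < 3 := abs_lt.2 ⟨by linarith, by linarith [not_le.1 fun h => k' (mem_ofPred.2 h)]⟩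
        rw [abs_pm, abs_lt] at k1
        exact ⟨by linarith, by linarith⟩
    _ ≤ _ := by
        refine (lintegral_union_le _ _ _).trans (add_le_add (le_of_eq (setLIntegral_congr_fun
          (hI.inter m) fun t ht => by rw [sl_pst ht.2])) ((lintegral_union_le _ _ _).trans ?_))
        rw [setLIntegral_congr_fun m' (g := fun _ => 0) fun t ht => by
          simp only [sl_pst' ht, Win39.gn_crit hv, ENNReal.ofReal_zero], lintegral_zero, add_zero]
        refine (setLIntegral_mono' measurableSet_Ioo fun t ht => ENNReal.ofReal_le_ofReal (h t ht)).trans ?_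
        rw [setLIntegral_const, Real.volume_Ioo, show τ + 3 - (τ - 3) = (6 : ℕ) by norm_num,
          ENNReal.ofReal_natCast]
        rfl

end Crest.Agent.X212.Cut71
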