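import Crest.Agent.X212.Cut71.Hf

/-!
# Row 212, SW-CUT (helper71): centring a pasted trajectory
-/

set_option autoImplicit false
set_option linter.unusedSectionVars false
noncomputable section
open scoped Manifold ContDiff Topology InnerProductSpace ENNReal
open MeasureTheory Set Function Filter

namespace Crest.Agent.X212.Cut71
open An Sw Sob92 Cyf70 Sw.En3 Pb50
open M (Mf pm)
open Nd18 (Jv isOpen_Jv)
open Real (smoothTransition)

theorem root {g : ℝ → ℝ} (hg : Continuous g) {A B u₁ u₂ : ℝ} (hAB : B < A) (h : ∀ t, g t ∈ Icc B A)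
    (h1 : ∀ t ≤ u₁, g t = A) (h2 : ∀ t ≥ u₂, g t = B) : ∃ δ,
    ∫ t, (1 - smoothTransition t) * (A - g (t + δ)) = ∫ t, smoothTransition t * (g (t + δ) - B) ∧
    (∀ u, (∀ t ≤ u, g t = A) → u - 1 ≤ δ) ∧ ∀ u, (∀ t ≥ u, g t = B) → δ ≤ u := by
  have z := @smoothTransition.zero_of_nonpos
  have o := @smoothTransition.one_of_one_le
  have cs := smoothTransition.continuous
  have hu : u₁ < u₂ := lt_of_not_ge fun k => hAB.ne' ((h1 _ le_rfl).symm.trans (h2 _ k))
  let f₁ := fun δ t => (1 - smoothTransition t) * (A - g (t + δ))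
  let f₂ := fun δ t => smoothTransition t * (g (t + δ) - B)
  have c1 : Continuous (uncurry f₁) := by fun_prop
  have c2 : Continuous (uncurry f₂) := by fun_prop
  have p1 : ∀ δ, 0 ≤ f₁ δ := fun δ t =>
    mul_nonneg (sub_nonneg.2 (smoothTransition.le_one _)) (sub_nonneg.2 (h _).2)
  have p2 : ∀ δ, 0 ≤ f₂ δ := fun δ t =>
    mul_nonneg (smoothTransition.nonneg _) (sub_nonneg.2 (h _).1)
  have z1 : ∀ u δ, (∀ t ≤ u, g t = A) → δ ≤ u - 1 → f₁ δ = 0 := fun u δ k k' => funext fun t => by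
    rcases le_total t 1 with j | j
    · simp [f₁, k (t + δ) (by linarith)]
    · simp [f₁, o j]
  have z2 : ∀ u δ, (∀ t ≥ u, g t = B) → u ≤ δ → f₂ δ = 0 := fun u δ k k' => funext fun t => by
    rcases le_total t 0 with j | j
    · simp [f₂, z j]
    · simp [f₂, k (t + δ) (by linarith)]
  let S := Icc (-(u₂ - u₁ + 1)) (u₂ - u₁ + 1)
  have s : ∀ δ ∈ Icc (u₁ - 1) u₂, ∀ t ∉ S, f₁ δ t = 0 ∧ f₂ δ t = 0 := fun δ hδ t ht => by
    rcases not_and_or.1 ht with j | j <;> rw [not_le] at j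
    · simp [f₁, f₂, h1 (t + δ) (by linarith [hδ.2]), z (show t ≤ 0 by linarith)]
    · simp [f₁, f₂, h2 (t + δ) (by linarith [hδ.1]), o (show 1 ≤ t by linarith)]
  obtain ⟨δ, hδ, e⟩ := intermediate_value_Icc (show u₁ - 1 ≤ u₂ by linarith)
    ((continuous_parametric_integral_of_continuous (μ := volume) c1 (isCompact_Icc : IsCompact S)).sub
      (continuous_parametric_integral_of_continuous (μ := volume) c2 isCompact_Icc)).continuousOn
    (show (0 : ℝ) ∈ _ from ⟨by simpa [z1 _ _ h1 le_rfl] using integral_nonneg (p2 _),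
      by simpa [z2 _ _ h2 le_rfl] using integral_nonneg (p1 _)⟩)
  have e' : ∫ t, f₁ δ t = ∫ t, f₂ δ t := by
    rw [← setIntegral_eq_integral_of_forall_compl_eq_zero fun t ht => (s δ hδ t ht).1,
      ← setIntegral_eq_integral_of_forall_compl_eq_zero fun t ht => (s δ hδ t ht).2]
    exact sub_eq_zero.1 e
  refine ⟨δ, e', fun u k => le_of_not_gt fun j => ?_, fun u k => le_of_not_gt fun j => ?_⟩
  · refine (c2.uncurry_left δ).integral_pos_of_hasCompactSupport_nonneg_nonzero (μ := volume) (x := 1)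
      (.intro isCompact_Icc fun t ht => (s δ hδ t ht).2) (p2 δ) ?_ |>.ne ?_
    · simp [f₂, k (1 + δ) (by linarith), sub_eq_zero, hAB.ne']
    · rw [← e', z1 u δ k j.le]; simp
  · refine (c1.uncurry_left δ).integral_pos_of_hasCompactSupport_nonneg_nonzero (μ := volume) (x := 0)
      (.intro isCompact_Icc fun t ht => (s δ hδ t ht).1) (p1 δ) ?_ |>.ne ?_
    · simp [f₁, k δ j.le, sub_eq_zero, hAB.ne']
    · rw [e', z2 u δ k j.le]; simp

theorem cont_bp : Continuous bp := (smoothTransition.contDiff (n := 1)).continuous_deriv le_rfl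

theorem av_eq (f : ℝ → ℝ) : av f = ∫ p in Icc 0 1, bp p * f p :=
  (setIntegral_eq_integral_of_forall_compl_eq_zero fun p hp => by rw [bp_zero hp, zero_mul]).symm

theorem av_const (a : ℝ) : av (fun _ => a) = a := by
  rw [av_eq, integral_mul_const, integral_Icc_eq_integral_Ioc,
    ← intervalIntegral.integral_of_le zero_le_one, bp, intervalIntegral.integral_deriv_eq_sub
      (fun _ _ => ((smoothTransition.contDiff (n := 1)).differentiable one_ne_zero) _)
      (cont_bp.intervalIntegrable _ _)]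
  simp

theorem av_mono {f g : ℝ → ℝ} (hf : Continuous f) (hg : Continuous g)
    (h : ∀ p ∈ Icc (0 : ℝ) 1, f p ≤ g p) : av f ≤ av g := by
  rw [av_eq, av_eq]
  exact setIntegral_mono_on (cont_bp.mul hf).integrableOn_Icc (cont_bp.mul hg).integrableOn_Icc
    measurableSet_Icc fun p hp => mul_le_mul_of_nonneg_left (h p hp)
      smoothTransition.monotone.deriv_nonneg

variable {κ lam ν : Type} [Fintype κ] [Fintype lam] [Fintype ν] [DecidableEq ν]
  {e : En3 κ lam ν} {c : e.ZC} {u v : e.YC} {b : Bool} {ρ τ T : ℝ}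

theorem cont_L (he : e.OK) (hc : e.cyl.Adm c) : Continuous fun s => L (sl c s) := by
  have k : ∀ {V : Type} [NormedAddCommGroup V] [NormedSpace ℝ V] {f : e.Y.M × ℝ → V},
      Sm (IC e.Y.I) f → (Continuous fun p : ℝ × e.Y.M => f (p.2, p.1)) ∧
        ∀ i, Continuous fun p : ℝ × e.Y.M => e.D.F.D i (fun y => f (y, p.1)) p.2 := fun hf =>
    ⟨hf.continuous.comp continuous_swap, fun i => ((e.D.Z.sm_D hf (some i)).continuous.comp
      continuous_swap).congr fun p => D_some _ hf i _⟩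
  refine (Win39.cont_lJ he (j := fun s => Win39.jt (sl c s)) ?_).congr fun s =>
    (Win39.L_jt he (fun k => sm_slice_fst (hc.sa _) s) (sm_slice_fst hc.sΦ s)).symm
  exact (continuous_pi fun j => (k (hc.sa _)).1).prodMk ((continuous_pi fun i => continuous_pi fun j =>
    (k (hc.sa _)).2 i).prodMk ((k hc.sΦ).1.prodMk (continuous_pi fun i => (k hc.sΦ).2 i)))

theorem cont_lb (hL : Continuous fun s => L (sl c s)) : Continuous (lb c) := by
  refine (continuous_parametric_integral_of_continuous (μ := volume)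
    (f := fun s p => bp p * L (sl c (s + p - 1 / 2))) ((cont_bp.comp continuous_snd).mul
      (hL.comp (by fun_prop))) isCompact_Icc).congr fun s => (av_eq _).symm

theorem lb_mem (hL : Continuous fun s => L (sl c s)) {x y s : ℝ}
    (h : ∀ t ∈ Icc (s - 1 / 2) (s + 1 / 2), L (sl c t) ∈ Icc x y) : lb c s ∈ Icc x y := by
  have k := fun p (hp : p ∈ Icc (0 : ℝ) 1) => h (s + p - 1 / 2) ⟨by linarith [hp.1], by linarith [hp.2]⟩
  exact ⟨(av_const x).ge.trans (av_mono continuous_const (hL.comp (by fun_prop)) fun p hp => (k p hp).1),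
    (av_mono (hL.comp (by fun_prop)) continuous_const fun p hp => (k p hp).2).trans (av_const y).le⟩

/-- the centring shift of a trajectory from `u` to `v` -/
theorem cen_root (he : e.OK) (hc : e.cyl.Adm c) (h0 : 0 ≤ ρ)
    (hu : ∀ r, |r - L u| ≤ ρ → e.ψ r = e.ψ (L u)) (hv : ∀ r, |r - L v| ≤ ρ → e.ψ r = e.ψ (L v))
    (lt : e.ψ (L v) < e.ψ (L u)) (bd : ∀ t, L (sl c t) ∈ Icc (L v - ρ) (L u + ρ))
    {T₁ T₂ : ℝ} (h1 : ∀ t < T₁, |L (sl c t) - L u| ≤ ρ) (h2 : ∀ t > T₂, |L (sl c t) - L v| ≤ ρ) :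
    ∃ δ, (∀ (X : Mf 4) (nc : ℕ) (bg : Bg X.I X.M κ lam ν nc) (K : Nk e bg) (c' : Cfg X.M κ ν),
      K.p = none → K.q = none → (∀ t, sl (K.pb c') t = sl c (t + δ)) →
        K.mo false (L u) c' = K.mo true (L v) c') ∧
      (∀ T, (∀ t < T, |L (sl c t) - L u| ≤ ρ) → T - 2 ≤ δ) ∧
      ∀ T, (∀ t > T, |L (sl c t) - L v| ≤ ρ) → δ ≤ T + 2 := by
  have hL := cont_L he hc
  have k : ∀ {w : e.YC} {s : ℝ}, (∀ r, |r - L w| ≤ ρ → e.ψ r = e.ψ (L w)) →
      (∀ t ∈ Icc (s - 1 / 2) (s + 1 / 2), |L (sl c t) - L w| ≤ ρ) → e.ψ (lb c s) = e.ψ (L w) :=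
    fun {w s} h h' => h _ (by
      have := lb_mem hL (x := L w - ρ) (y := L w + ρ) fun t ht =>
        ⟨by linarith [(abs_le.1 (h' t ht)).1], by linarith [(abs_le.1 (h' t ht)).2]⟩
      exact abs_le.2 ⟨by linarith [this.1], by linarith [this.2]⟩)
  have k1 : ∀ T, (∀ t < T, |L (sl c t) - L u| ≤ ρ) → ∀ t ≤ T - 1, e.ψ (lb c t) = e.ψ (L u) :=
    fun T h t ht => k hu fun s hs => h s (by linarith [hs.2])
  have k2 : ∀ T, (∀ t > T, |L (sl c t) - L v| ≤ ρ) → ∀ t ≥ T + 1, e.ψ (lb c t) = e.ψ (L v) :=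
    fun T h t ht => k hv fun s hs => h s (by linarith [hs.1])
  obtain ⟨δ, d1, d2, d3⟩ := root (he.sψ.continuous.comp (cont_lb hL)) lt (fun t => by
    have := lb_mem hL (s := t) fun t _ => bd t
    exact ⟨(hv (L v - ρ) (by simp [abs_of_nonneg h0])).ge.trans (he.mψ this.1),
      (he.mψ this.2).trans (hu (L u + ρ) (by simp [abs_of_nonneg h0])).le⟩) (k1 _ h1) (k2 _ h2)
  refine ⟨δ, fun X nc bg K c' hp hq hs => ?_, fun T h => by linarith [d2 _ (k1 T h)],
    fun T h => by linarith [d3 _ (k2 T h)]⟩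
  have : ∀ t, lb (K.pb c') t = lb c (t + δ) := fun t =>
    (lb_congr fun s _ => by rw [hs, sl_shf]).trans (lb_shf c δ t)
  simpa [Nk.mo, Nk.β, hp, hq, this, pm] using d1

/-- bounds of the levels of a pasted trajectory -/
theorem lev_bd (lt : 0 ≤ pm b * (L u - L v)) (h0 : 0 ≤ ρ)
    (hu : ∀ t, pm b * t < T → |L (sl c t) - L u| ≤ ρ / 2)
    (hv : ∀ t ∈ Ioo (τ - 3) (τ + 3), |L (sl (pst b τ v c) t) - L v| ≤ ρ / 2)
    (hm : ∀ s t, s ≤ t → pm b * s ∈ Icc (T - 1) (pm b * τ) → pm b * t ∈ Icc (T - 1) (pm b * τ) →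
      L (sl c t) ≤ L (sl c s) + ρ / 2) (t : ℝ) :
    -ρ ≤ pm b * (L (sl (pst b τ v c) t) - L v) ∧ pm b * (L (sl (pst b τ v c) t) - L u) ≤ ρ := by
  rcases le_or_gt 2 (pm b * (t - τ)) with k | k
  · rw [sl_pst' k]
    constructor <;> linarith [mul_sub (pm b) (L u) (L v), mul_sub (pm b) (L v) (L u),
      mul_sub (pm b) (L v) (L v)]
  rcases lt_or_ge (-3) (pm b * (t - τ)) with k' | k'
  · have k1 : |pm b * (t - τ)| < 3 := abs_lt.2 ⟨k', by linarith⟩
    rw [abs_pm, abs_lt] at k1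
    have := abs_le.1 (hv t ⟨by linarith, by linarith⟩)
    cases b <;> simp only [pm, if_true, Bool.false_eq_true, if_false] at * <;> constructor <;> linarith
  rw [sl_pst (by linarith)]
  rcases lt_or_ge (pm b * t) T with j | j
  · have := abs_le.1 (hu t j)
    cases b <;> simp only [pm, if_true, Bool.false_eq_true, if_false] at * <;> constructor <;> linarith
  have k1 := abs_le.1 (hu (pm b * (T - 1)) (by rw [← mul_assoc, pm_sq]; linarith))
  have k2 := abs_le.1 (hv τ ⟨by linarith, by linarith⟩)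
  rw [sl_pst (by simp)] at k2
  have k3 := hm (pm b * (T - 1)) t
  have k4 := hm t (pm b * (T - 1))
  have k5 := hm t τ
  have k6 := hm τ t
  cases b <;> simp only [pm, if_true, Bool.false_eq_true, if_false, mem_Icc] at *
  · constructor <;> linarith [k4 (by linarith) ⟨by linarith, by linarith⟩ ⟨by linarith, by linarith⟩,
      k6 (by linarith) ⟨by linarith, by linarith⟩ ⟨by linarith, by linarith⟩]
  · constructor <;> linarith [k3 (by linarith) ⟨by linarith, by linarith⟩ ⟨by linarith, by linarith⟩,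
      k5 (by linarith) ⟨by linarith, by linarith⟩ ⟨by linarith, by linarith⟩]

variable (e) in
/-- the conclusion of SW-MONO -/
def Mn (C ε η : ℝ) : Prop := ∀ (W : Type) (T : W → Option e.YT) q c p p', Sml T q 4 η →
  Loc T q c p p' → Sup c (Jv p p') C → ∀ s t, s ≤ t → s - 1 ∈ Jv p p' → t + 1 ∈ Jv p p' →
    L (sl c t) + (en c (Ioo s t)).toReal / 2 ≤ L (sl c s) + ε * (en c (Ioo (s - 1) (t + 1))).toReal

theorem mono_pt {X : Mf 4} {nc : ℕ} {d : Dt κ lam ν} {N : Type} [Fintype N] {ty : N → d.𝓔}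
    {P : Pc d X nc ty} (hP : P.OK) {i : N} {K : Nk (d.e (ty i)) P.bg} (hK : K ∈ P.nk i)
    {C C₀ ε η lo hi : ℝ} (hM : Mn (d.e (ty i)) C ε η) (hε : 0 ≤ ε) (hC : C₀ ≤ C) {q : d.W →₀ ℝ}
    {c : Cfg X.M κ ν} (hc : P.bg.Adm c) (hq : P.Small 6 η q) (hs : ∀ x, ‖c.Φ x‖ ≤ C₀)
    (he : P.ean c ≤ ENNReal.ofReal C₀) (hI : Ioo (lo - 1) (hi + 1) ⊆ K.deep 2)
    (h0 : ∀ w ∈ q.support, ∀ x ∈ univ ×ˢ Ioo lo hi, P.fo w (K.ψ x) = 0)
    (h1 : P.bg.EqOn (P.pt q) c (K.ψ '' univ ×ˢ Ioo lo hi)) {s t : ℝ} (hst : s ≤ t) (h2 : lo < s - 1)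
    (h3 : t + 1 < hi) : L (sl (K.pb c) t) ≤ L (sl (K.pb c) s) + ε * |C| := by
  have J := Win39.Jv_some
  have hI' : Ioo lo hi ⊆ K.deep 2 := (Ioo_subset_Ioo (by linarith) (by linarith)).trans hI
  have k := hM d.W (fun w => d.yt w (ty i)) q (K.pb c) (some lo) (some hi)
    (Sep15.S.sml_mono (hq.imp fun _ h => ⟨h.1, fun w hw => ⟨(h.2 w hw).1, (h.2 w hw).2.2.2.2 i⟩⟩)
      (by norm_num) le_rfl)
    ⟨Sep15.S.admOn_mono (admOn_pb K hc) (prod_mono_right fun t ht =>
      deep_J K two_pos (hI (by simpa only [Option.map_some, J] using ht))),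
      (loc hP.toOK q c hK (J lo hi ▸ hI') (J lo hi ▸ h0)).1 (J lo hi ▸ h1)⟩
    (fun x _ => (hs _).trans hC) s t hst (J lo hi ▸ ⟨h2, by linarith⟩) (J lo hi ▸ ⟨by linarith, h3⟩)
  have k1 : en (K.pb c) (Ioo (s - 1) (t + 1)) ≤ ENNReal.ofReal |C| := by
    refine (Sep15.S.en_mono _ ((Ioo_subset_Ioo h2.le h3.le).trans hI')).trans (le_trans ?_
      (he.trans (ENNReal.ofReal_le_ofReal (hC.trans (le_abs_self C)))))
    refine le_trans ?_ le_add_self
    have := Finset.single_le_sum (f := fun i => (P.nk i).elim 0 fun K => en (K.pb c) (K.deep 2))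
      (fun _ _ => zero_le) (Finset.mem_univ i)
    rwa [Option.mem_def.1 hK] at this
  have k2 := mul_le_mul_of_nonneg_left (ENNReal.toReal_le_of_le_ofReal (abs_nonneg C) k1) hε
  linarith [ENNReal.toReal_nonneg (a := en (K.pb c) (Ioo s t))]

end Crest.Agent.X212.Cut71
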