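import Crest.Agent.X212.Cut71.Hf

/-!
# Row 212, SW-CUT (helper71): limits, tails, bounds and cuts of the pasted configuration
-/

set_option autoImplicit false
set_option linter.unusedSectionVars false
noncomputable section
open scoped Manifold ContDiff Topology InnerProductSpace ENNReal
open MeasureTheory Set Function Filter

namespace Crest.Agent.X212.Cut71
open An Sw Sob92 Cyf70 Sw.En3 Pb50
open M (Mf pm)
open Nd18 (ct Dp Jv isOpen_Jv)
open Sep15.S (mem_Jv_map)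

variable {κ lam ν : Type} [Fintype κ] [Fintype lam] [Fintype ν] [DecidableEq ν]
  {X X' X'' : Mf 4} {nc nc' nc'' : ℕ}

section nk
variable {e : En3 κ lam ν} {b : Bg X.I X.M κ lam ν nc} (K : Nk e b) {s : Bool} {T : ℝ}

theorem opn_far : IsOpen (K.far s T) := isOpen_Jv.inter (isOpen_lt continuous_const (by fun_prop))

theorem not_far {x : X.M} : x ∉ K.ψ '' (univ ×ˢ K.far s T) ↔ (K.tm x ∈ K.J → pm s * K.tm x ≤ T) := by
  rw [Nk.far, mem_img K inter_subset_left]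
  simp

theorem off_inf (h : ∃ a, K.p = some a ∧ K.q = some (a + 2)) : ¬K.Inf s := by
  obtain ⟨a, h1, h2⟩ := h
  cases s <;> simp [Nk.Inf, h1, h2]

theorem tlz_congr {c c' : e.ZC} {v : e.YC} {I : Set ℝ} {w : List (Option κ)} (hI : IsOpen I)
    (h : ∀ x ∈ univ ×ˢ I, At id c c' x) : tlz c v I w ≤ tlz c' v I w :=
  tlz_sh (δ := 0) hI hI.measurableSet (by simp) fun x hx => by simp only [add_zero]; exact h x hx

end nk

theorem eq_or_not (s b : Bool) : s = b ∨ s = !b := by cases s <;> cases b <;> simp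

variable {d : Dt κ lam ν} [Fintype d.𝓔] {Sl : Type} [Fintype Sl]
  {P : PcS d Sl X nc} {P' : PcS d Sl X' nc'} {ε : d.𝓔} {a a' : Sl} {b : Bool}
  {φ : OpenPartialHomeomorph X'.M X.M} {δ r : ℝ} {O : d.𝓔 × Sl → Prop} {π : d.𝓔 × Sl → Sl}
  {cc : Fin nc' → Fin nc} {J : Finset d.W} {K : Nk (d.e ε) P.bg} {K' : Nk (d.e ε) P'.bg} {τ t D : ℝ}
  {x : X'.M} {z : (d.e ε).Y.M × ℝ} {v : (d.e ε).YC} {c : Cfg X.M κ ν}

theorem half_inf (H : Half P P' ε a a' b φ δ r O π cc J) (hK : P.nk (ε, a) = some K)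
    (hK' : P'.nk (ε, a') = some K') : K.Inf (!b) ↔ K'.Inf (!b) := by
  have := (half_nk H hK hK').2.1
  cases b <;> simp only [Nk.Inf, Bool.not_true, Bool.not_false, if_true, Bool.false_eq_true,
    if_false] at this ⊢ <;> simp [this]

namespace Hf
variable (h : Hf P P' ε a a' b φ δ O π cc J K K' τ)
include h

theorem le_dep (k : K'.tm x ∈ K'.J → pm b * K'.tm x ≤ pm b * (τ - δ) + D) (hD : 0 ≤ D) :
    dep b δ K' τ x ≤ D := by
  by_contra k'
  have := k ((tm_tgt K').1 (h.tgt (by linarith [not_le.1 k'])))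
  exact k' (by rw [dep, mul_sub]; linarith)

theorem pb_at' (hz : z.2 ∈ K'.J) (k : pm b * (z.2 - (τ - δ)) ≤ 1) :
    At (fun x => (x.1, x.2 + δ)) (K'.pb (xx b φ δ K' τ v c)) (K.pb c) z := by
  have := xx_at (φ := φ) (v := v) (c := c) (x := K'.ψ z) (b := b) (δ := δ) (τ := τ) (K' := K')
    (by rwa [dep, K'.tm_ψ _ (K'.mem_src.2 hz)])
  rw [At, h.fwd hz (by linarith)] at this
  exact this

theorem far' {T T' : ℝ} (h1 : T + pm b * δ ≤ T') (h2 : -(pm b * (τ - δ)) ≤ T') (ht : t ∈ K'.far (!b) T') :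
    pm b * (t - (τ - δ)) ≤ 1 ∧ t + δ ∈ K.far (!b) T := by
  have k : T' < -pm b * t := pm_not b ▸ ht.2
  have k1 : pm b * (t - (τ - δ)) ≤ 1 := by linarith [mul_sub (pm b) t (τ - δ)]
  exact ⟨k1, (h.J_iff (by linarith)).1 ht.1, by rw [mem_ofPred, pm_not]; linarith [mul_add (pm b) t δ]⟩

/-- the limits -/
theorem as {β : BCs fun i : d.𝓔 × Sl => d.e i.1} {β' : BCs fun i : d.𝓔 × Sl => d.e i.1}
    (hc : P.As β c) (hv : (d.e ε).cyl.Adm (fz v)) (h1 : β' (ε, a') b = v)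
    (h2 : K.Inf (!b) → β' (ε, a') (!b) = β (ε, a) (!b))
    (h3 : ∀ j s, O j → P.Inf j s → β j s = β' (j.1, π j) s) : P'.As β' (xx b φ δ K' τ v c) := by
  refine ⟨h.adm hc.1 hv, fun j' s K₁' hK hs => ?_⟩
  rcases h.cases' j' with rfl | k | ⟨j, k, rfl⟩
  · obtain rfl := Option.some.inj (h.hK'.symm.trans hK)
    rcases eq_or_not s b with rfl | rfl
    · have e : ∀ z ∈ (univ : Set (d.e ε).Y.M) ×ˢ K'.far s (pm s * (τ - δ) + 2),
          At (fun x => (x.1, x.2 + δ)) (K'.pb (xx s φ δ K' τ v c)) (fz v) z := fun z hz => by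
        have k1 := h.pb_at (v := v) (c := c) hz.2.1
        have k2 := mix_zero (k := fun x => kk s τ x.2) (K.pb c) (fz v) (x := (z.1, z.2 + δ))
          (kk_zero (by linarith [mem_ofPred.1 hz.2.2, mul_sub (pm s) z.2 (τ - δ),
            show z.2 + δ - τ = z.2 - (τ - δ) by ring] : 2 ≤ pm s * (z.2 + δ - τ)))
        exact ⟨fun i => (k1.1 i).trans (k2.1 i), k1.2.trans k2.2⟩
      rw [h1]
      exact ⟨pm s * (τ - δ) + 2, fun i => hh_congr (Hi.zero.hh _) (opn (opn_far K')) fun z hz => by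
        simp only [(e z hz).1, fz_a v i z, fz_a v i (z.1, z.2 + δ), sub_self, Pi.zero_apply],
        hh_congr (Hi.zero.hh _) (opn (opn_far K')) fun z hz => by
          simp only [(e z hz).2, fz, sub_self, Pi.zero_apply]⟩
    · have k := (half_inf h.H.choose_spec h.hK h.hK').2 hs
      obtain ⟨T, k1, k2⟩ := hc.2 (ε, a) _ K h.hK k
      have f := fun t => h.far' (t := t) (le_max_left (T + pm b * δ) (-(pm b * (τ - δ)))) (le_max_right _ _)
      rw [h2 k]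
      exact ⟨max (T + pm b * δ) (-(pm b * (τ - δ))), fun i => hh_sh (opn_far K') (fun t ht => (f t ht).2) (fun z hz => by
        rw [(h.pb_at' hz.2.1 (f _ hz.2).1).1, fz_a _ i z, fz_a _ i (z.1, z.2 + δ)]) (k1 i),
        hh_sh (opn_far K') (fun t ht => (f t ht).2)
          (fun z hz => by rw [(h.pb_at' hz.2.1 (f _ hz.2).1).2]) k2⟩
  · exact (off_inf K₁' (k K₁' hK) hs).elim
  rcases h.oth (v := v) k hK with k1 | ⟨K₁, k1, k2, k3, k4⟩
  · exact (off_inf K₁' (k1.2 K₁' hK) hs).elim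
  have k5 : K₁.Inf s := by rwa [Nk.Inf, k2, k3]
  obtain ⟨T, k6, k7⟩ := hc.2 j s K₁ k1 k5
  rw [Nk.far, Nd18.Nk.J, k2, k3] at k6 k7
  rw [← h3 j s k ⟨K₁, k1, k5⟩]
  exact ⟨T, fun i => hh_congr (k6 i) (opn (opn_far K₁')) fun z hz =>
    congrArg (· - _) (((k4 z (K₁'.mem_src.2 hz.2.1)).2.2 c).1 i).symm,
    hh_congr k7 (opn (opn_far K₁')) fun z hz =>
      congrArg (· - _) ((k4 z (K₁'.mem_src.2 hz.2.1)).2.2 c).2.symm⟩

theorem tl_main (R : ℝ) (w : List (Option κ)) : K'.tl b v (xx b φ δ K' τ v c) (pm b * (τ - δ) - R) w ≤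
    tlz (pst b τ v (K.pb c)) v {t | -R < pm b * (t - τ)} w :=
  tlz_sh (opn_far K') (measurableSet_lt measurable_const (by fun_prop)) (fun t ht => by
    rw [mem_ofPred, show t + δ - τ = t - (τ - δ) by ring, mul_sub]
    linarith [mem_ofPred.1 ht.2]) fun _ hz => h.pb_at hz.2.1

theorem tl_back {T T' : ℝ} (h1 : T + pm b * δ ≤ T') (h2 : -(pm b * (τ - δ)) ≤ T') (u : (d.e ε).YC)
    (w : List (Option κ)) : K'.tl (!b) u (xx b φ δ K' τ v c) T' w ≤ K.tl (!b) u c T w :=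
  tlz_sh (opn_far K') (opn_far K).measurableSet (fun _ ht => (h.far' h1 h2 ht).2)
    fun _ hz => h.pb_at' hz.2.1 (h.far' h1 h2 hz.2).1

theorem tl_oth {j : d.𝓔 × Sl} (hj : O j) {K₁' : Nk (d.e j.1) P'.bg} (h1 : P'.nk (j.1, π j) = some K₁')
    {s : Bool} (hs : K₁'.Inf s) : ∃ K₁ : Nk (d.e j.1) P.bg, P.nk j = some K₁ ∧ K₁.Inf s ∧
      ∀ u T w, K₁'.tl s u (xx b φ δ K' τ v c) T w ≤ K₁.tl s u c T w := by
  rcases h.oth (v := v) hj h1 with k1 | ⟨K₁, k1, k2, k3, k4⟩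
  · exact (off_inf K₁' (k1.2 K₁' h1) hs).elim
  refine ⟨K₁, k1, by rwa [Nk.Inf, k2, k3], fun u T w => ?_⟩
  rw [Nk.tl, Nk.tl, show K₁.far s T = K₁'.far s T by rw [Nk.far, Nd18.Nk.J, k2, k3]; rfl]
  exact tlz_congr (opn_far K₁') fun z hz => (k4 z (K₁'.mem_src.2 hz.2.1)).2.2 c

/-- the exact parts -/
theorem reg {ρ ρ' : d.𝓔 × Sl → Bool → Option ℝ} (h1 : ρ' (ε, a') b = some (pm b * (τ - δ)))
    (h2 : K.Inf (!b) → ρ' (ε, a') (!b) = (ρ (ε, a) (!b)).map (· + pm b * δ))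
    (h3 : K.Inf b → ∀ r ∈ ρ (ε, a) b, pm b * τ ≤ r) (h4 : ∀ j, O j → ρ' (j.1, π j) = ρ j)
    (hx : x ∈ P'.reg ρ') : dep b δ K' τ x ≤ 0 ∧ φ x ∈ P.reg ρ := by
  have k := h.le_dep (D := 0) (fun k => by
    simpa using (not_far K').1 (hx (ε, a') b K' h.hK' h.inf _ h1) k) le_rfl
  refine ⟨k, fun j s K₁ hK hs r hr => (not_far K₁).2 fun ht => ?_⟩
  rcases h.pre (by linarith) hK ((tm_tgt K₁).2 ht) with k1 | ⟨rfl, k1, k2⟩ | ⟨k0, K₁', k1, k2, k3, k4⟩
  · exact (off_inf K₁ (k1 K₁ hK) hs).elim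
  · obtain rfl := Option.some.inj (h.hK.symm.trans hK)
    rw [← k1]
    rcases eq_or_not s b with rfl | rfl
    · linarith [h3 hs r hr, show pm s * (K'.tm x + δ) = dep s δ K' τ x + pm s * τ by rw [dep]; ring]
    · have := (not_far K').1 (hx (ε, a') _ K' h.hK' ((half_inf h.H.choose_spec h.hK h.hK').1 hs)
        (r + pm b * δ) (by rw [h2 hs, Option.mem_def.1 hr]; rfl)) k2
      rw [pm_not] at this ⊢
      linarith
  · rw [← k4]
    exact (not_far K₁').1 (hx (j.1, π j) s K₁' k1 (by rwa [Nk.Inf, ← k2, ← k3]) r (h4 j k0 ▸ hr))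
      (by rw [k4, Nd18.Nk.J, ← k2, ← k3]; exact ht)

/-- the energy -/
theorem ean {η : ℝ} (hv : Crit v)
    (hg : ∀ t ∈ Ioo (τ - 3) (τ + 3), gn (sl (pst b τ v (K.pb c)) t) ≤ η) :
    P'.ean (xx b φ δ K' τ v c) ≤ P.ean c + ENNReal.ofReal η * 6 := by
  classical
  have m := fun {X : Mf 4} {nc} (P : PcS d Sl X nc) => (meas_thick P.toPz (D := 3) (by norm_num)).2
  have t3 := fun x (hx : x ∈ P'.thick 3) => h.thick (by norm_num) le_rfl hx
  rw [Pz.ean, Pz.ean, add_assoc]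
  refine add_le_add ((setLIntegral_congr_fun (m P') fun x hx => ?_).le.trans (lint_iso h.lit.iso (m P')
    (m P) (fun x hx => h.src' (by linarith [(t3 x hx).1])) (fun x hx => (t3 x hx).2) _)) ?_
  · exact congrArg _ (ed_φ h.lit (h.src' ((t3 x hx).1.le.trans (by norm_num)))
      (xx_ev ((t3 x hx).1.trans (by norm_num))))
  set g' := fun j => (P'.nk j).elim 0 fun K₁ => en (K₁.pb (xx b φ δ K' τ v c)) (K₁.deep 2) with e'
  set g := fun j => (P.nk j).elim 0 fun K₁ => en (K₁.pb c) (K₁.deep 2) with e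
  have off : ∀ j, P'.Off j → g' j = 0 := fun j k => elim_zero fun K₁ h1 => by
    rw [eq_empty_of_forall_notMem (off_deep K₁ one_le_two (k K₁ h1)), en, Measure.restrict_empty,
      lintegral_zero_measure]
  rw [← Finset.add_sum_erase _ _ (Finset.mem_univ (ε, a')),
    ← Finset.add_sum_erase _ g (Finset.mem_univ (ε, a)), add_right_comm]
  refine add_le_add ?_ ?_
  · simp only [e, e', h.hK, h.hK', Option.elim_some]
    have m1 : MeasurableSet {t | t - δ ∈ K'.deep 2} := isOpen_Jv.measurableSet.preimage (by fun_prop)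
    refine (en_sh (δ := δ) (I' := {t | t - δ ∈ K'.deep 2}) isOpen_Jv.measurableSet
      (fun t ht => by rwa [mem_ofPred, add_sub_cancel_right])
      fun t ht => h.sl_pb (deep_J K' two_pos ht)).trans ((en_pst hv hg m1).trans
        (add_le_add_left (Sep15.S.en_mono _ fun t ht => ?_) _))
    have := (h.deep_iff (D := 2) (t := t - δ) (by norm_num) (by
      rw [sub_sub_sub_cancel_right]; linarith [mem_ofPred.1 ht.2])).1 ht.1
    rwa [sub_add_cancel] at this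
  calc _ ≤ ∑ j' ∈ (Finset.univ.filter O).image fun j => (j.1, π j), g' j' :=
        Finset.sum_le_sum_of_ne_zero fun j' h1 h2 => by
          rcases h.cases' j' with k | k | ⟨j, k, rfl⟩
          · exact ((Finset.mem_erase.1 h1).1 k).elim
          · exact (h2 (off j' k)).elim
          · exact Finset.mem_image_of_mem _ (by simpa using k)
    _ = ∑ j ∈ Finset.univ.filter O, g' (j.1, π j) := Finset.sum_image fun j h1 j' h2 k =>
        h.H.choose_spec.inj j j' (by simpa using h1) (by simpa using h2) k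
    _ ≤ ∑ j ∈ Finset.univ.filter O, g j := Finset.sum_le_sum fun j hj => by
        cases k0 : P'.nk (j.1, π j) with
        | none => simp only [e', k0, Option.elim_none, zero_le]
        | some K₁' =>
          rcases h.oth (v := v) (by simpa using hj) k0 with k1 | ⟨K₁, k1, k2, k3, k4⟩
          · exact (off _ k1.2).le.trans zero_le
          simp only [e, e', k0, k1, Option.elim_some]
          refine en_sh (δ := 0) isOpen_Jv.measurableSet (fun t ht => ?_) fun t ht => ?_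
          · rwa [add_zero, Nk.deep, k2, k3]
          · rw [add_zero]
            exact sl_congr fun y => (k4 _ (src K₁' (deep_J K₁' two_pos ht) y)).2.2 c
    _ ≤ _ := Finset.sum_le_sum_of_subset fun j hj => Finset.mem_erase.2
        ⟨(h.H.choose_spec.oth j (by simpa using hj)).1, Finset.mem_univ _⟩

theorem low {η : ℝ} (h1 : ∀ i, ∀ K₁ ∈ P.nk i, ∀ t ∈ K₁.deep 3, η ≤ nm (sl (K₁.pb c) t))
    (h2 : η ≤ nm v) (h3 : ∀ t ∈ Ioo (τ - 3) (τ + 3), η ≤ nm (sl (pst b τ v (K.pb c)) t)) :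
    ∀ i, ∀ K₁ ∈ P'.nk i, ∀ t ∈ K₁.deep 3, η ≤ nm (sl (K₁.pb (xx b φ δ K' τ v c)) t) := by
  intro j' K₁' hK t ht
  have t1 := deep_J K₁' three_pos ht
  rcases h.cases' j' with rfl | k | ⟨j, k, rfl⟩
  · obtain rfl := Option.some.inj (h.hK'.symm.trans hK)
    rw [h.sl_pb t1]
    rcases le_or_gt (pm b * (t + δ - τ)) 1 with k | k
    · rw [sl_pst k]
      exact h1 (ε, a) K h.hK _ ((h.deep_iff le_rfl (by rw [← sub_add, sub_add_eq_add_sub]; linarith)).1 ht)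
    rcases le_or_gt 2 (pm b * (t + δ - τ)) with k' | k'
    · rwa [sl_pst' k']
    have k1 : |pm b * (t + δ - τ)| < 3 := abs_lt.2 ⟨by linarith, by linarith⟩
    rw [abs_pm, abs_lt] at k1
    exact h3 _ ⟨by linarith, by linarith⟩
  · exact (off_deep K₁' (by norm_num) (k K₁' hK) _ ht).elim
  rcases h.oth (v := v) k hK with k1 | ⟨K₁, k1, k2, k3, k4⟩
  · exact (off_deep K₁' (by norm_num) (k1.2 K₁' hK) _ ht).elim
  rw [sl_congr fun y => (k4 _ (src K₁' t1 y)).2.2 c]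
  exact h1 j K₁ k1 t (by rwa [Nk.deep, k2, k3])

/-- the cut functions -/
theorem cuts (hc : P.bg.Adm c) {q : d.W →₀ ℝ} (hq : q.support ⊆ J) {R : ℝ} (j : Fin nc')
    (h1 : Kop92.Sp R (P'.bg.ct j).ρ) (h2 : Kop92.Sp R (P'.bg.ct j).η)
    (h3 : ∀ w ∈ J, Kop92.Sp R (P'.η w j))
    (h4 : ∀ y, ‖y‖ ≤ R → dep b δ K' τ ((P'.bg.ct j).Ξ y) ≤ 1)
    (k : P.bg.l (cc j) c = (P.pt q).S c (cc j)) :
    P'.bg.l j (xx b φ δ K' τ v c) = (P'.pt q).S (xx b φ δ K' τ v c) j := by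
  obtain ⟨k1, k2, k3, k4, k5⟩ := h.H.choose_spec.ct j
  have e : ∀ η, Kop92.Sp R η → P'.bg.lη j η (xx b φ δ K' τ v c) = P.bg.lη (cc j) η c := fun η hη =>
    lη_φ h.lit h.ok'.bg h.ok.bg hc k1 k2 k3 h1 hη fun y hy => xx_at (h4 y hy)
  rw [Bg.l, e _ h2, ← k4]
  refine k.trans ?_
  simp only [Pc.pt]
  exact Finsupp.sum_congr fun w hw => by rw [e _ (h3 w (hq hw)), k5 w (hq hw)]

end Hf

theorem xx_sup {C : ℝ} (h1 : ∀ x, ‖c.Φ x‖ ≤ C) (h2 : ∀ y, ‖v.Φ y‖ ≤ C) (x : X'.M) :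
    ‖(xx b φ δ K' τ v c).Φ x‖ ≤ C := norm_mix kk_mem (.inr (h1 _)) (h2 _)

section pair
variable {P'' : PcS d Sl X'' nc''} {a'' : Sl} {φ' : OpenPartialHomeomorph X''.M X.M} {δ' : ℝ}
  {O' : d.𝓔 × Sl → Prop} {cc' : Fin nc'' → Fin nc} {K'' : Nk (d.e ε) P''.bg}

/-- the necks of the other side do not meet this side -/
theorem pair_out (hP : P.OK) (H' : Half P P'' ε a a'' (!b) φ' δ' r O' π cc' J)
    (hK : P.nk (ε, a) = some K) (cap : φ.target ∩ φ'.target = K.ψ.target)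
    (hO : ∀ j ≠ (ε, a), ¬O j → O' j) :
    ∀ j ≠ (ε, a), ¬O j → P.Off j ∨ ∀ K₁ ∈ P.nk j, Disjoint K₁.ψ.target φ.target := fun j h1 h2 => by
  obtain ⟨-, -, k | ⟨K₁, k1, K₁', -, k3, k4, k5, k6⟩⟩ := H'.oth j (hO j h1 h2)
  · exact .inl k.1
  refine .inr fun K₂ k7 => disjoint_left.2 fun y hy hy' => ?_
  obtain rfl := Option.some.inj ((Option.mem_def.1 k1).symm.trans k7)
  have s := K₁.ψ.map_target hy
  have s' : K₁.ψ.symm y ∈ K₁'.ψ.source := by rwa [K₁'.src, ← k3, ← k4, ← K₁.src]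
  have := φ'.map_source (k5 (K₁'.ψ.map_source s'))
  rw [← k6 _ s', K₁.ψ.right_inv hy] at this
  exact disjoint_left.1 (hP.dj h1 K₁ k1 K hK) hy (cap ▸ ⟨hy', this⟩)

/-- the compactly supported terms agree up to the time of the cut -/
theorem pair_fo (h : Hf P P' ε a a' b φ δ O π cc J K K' τ) (H : Half P P' ε a a' b φ δ r O π cc J)
    (H' : Half P P'' ε a a'' (!b) φ' δ' r O' π cc' J) (hK'' : P''.nk (ε, a'') = some K'')
    (hr : 2 * r = pm b * (δ' - δ)) {r₀ : ℝ} (h0 : r₀ ≤ r) (h1 : r₀ < pm b * (δ' - τ)) {w : d.W}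
    (hw : w ∈ J) (f' : ∀ x, K'.tm x ∈ K'.J → r₀ < pm b * K'.tm x → P'.fo w x = 0)
    (f'' : ∀ x, K''.tm x ∈ K''.J → r₀ < pm (!b) * K''.tm x → P''.fo w x = 0)
    (hx : dep b δ K' τ x ≤ 0) : P.fo w (φ x) = P'.fo w x := by
  obtain ⟨-, -, -, -, k5⟩ := half_nk H h.hK h.hK'
  obtain ⟨-, -, -, -, k5'⟩ := half_nk H' h.hK hK''
  by_cases k : x ∈ K'.ψ '' (univ ×ˢ K'.far b r)
  swap
  · obtain ⟨K₀, -, K₀', h2, -, -, -, -, h7⟩ := H.nk
    obtain rfl := Option.some.inj (h.hK'.symm.trans h2)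
    exact h7 w hw x k
  obtain ⟨⟨y, t⟩, ⟨-, t1, t2⟩, rfl⟩ := k
  have e := K'.tm_ψ _ (src K' t1 y)
  rw [dep, e, mul_sub] at hx
  have t3 : pm b * (t - (τ - δ)) ≤ 3 := by linarith [mul_sub (pm b) t (τ - δ)]
  obtain ⟨k1, -, k3⟩ := half_inv H' h.hK hK'' (t := t + δ - δ')
    (by rw [sub_add_cancel]; exact (h.J_iff t3).1 t1) y
  have e' := K''.tm_ψ _ (src K'' k1 y)
  have e2 : pm (!b) * (t + δ - δ') = pm b * (δ' - δ) - pm b * t := by rw [pm_not]; ring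
  have t2' : r < pm b * t := t2
  rw [f' _ (e ▸ t1) (by rw [e]; linarith), h.fwd (z := (y, t)) t1 t3, ← sub_add_cancel (t + δ) δ', ← k3,
    k5' w hw _ (by rw [e', e2]; linarith), f'' _ (e' ▸ k1) (by
      rw [e', e2]; linarith [show pm b * (δ' - δ) = pm b * (δ' - τ) + pm b * (τ - δ) by ring])]

end pair

end Crest.Agent.X212.Cut71
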