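import Crest.Agent.X212.Pb50.Main
import Crest.Agent.X212.Sw.Brk
import Crest.Agent.X212.Nka63.B

/-!
# Row 212, SW-CUT (helper71): pull-back along literal maps; necks and shifts are literal
-/

set_option autoImplicit false
set_option linter.unusedSectionVars false
noncomputable section
open scoped Manifold ContDiff Topology InnerProductSpace ENNReal
open MeasureTheory Set Function Filter

namespace Crest.Agent.X212.Cut71
open An Sw Sob92 Cyf70 Sw.En3 Pb50
open Wz78 (SA nab)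
open M (Mf)

variable {κ lam ν : Type} [Fintype κ] [Fintype lam] [Fintype ν] [DecidableEq ν]
  {X X' : Mf 4} {nc nc' : ℕ}

/-- `c` is the pull-back of `c'` at `x` -/
def At {A B : Type} (f : A → B) (c : Cfg A κ ν) (c' : Cfg B κ ν) (x : A) : Prop :=
  (∀ k, c.a k x = c'.a k (f x)) ∧ c.Φ x = c'.Φ (f x)

theorem At.pb {A B : Type} (f : A → B) (c' : Cfg B κ ν) (x : A) : At f (c'.pb f) c' x :=
  ⟨fun _ => rfl, rfl⟩

section lit
variable {b : Bg X.I X.M κ lam ν nc} {b' : Bg X'.I X'.M κ lam ν nc'}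
  {φ : OpenPartialHomeomorph X.M X'.M} (h : b.Lit b' φ) {x : X.M}
  {c : Cfg X.M κ ν} {c' : Cfg X'.M κ ν}
include h

theorem rel : Pj41.FRel b.F b'.F φ φ.source := Pj41.fRel_of_iso h.iso

theorem lit_symm : b'.Lit b φ.symm where
  iso := iso_symm h.iso
  P i j y hy := by rw [← h.P i j _ (φ.map_target hy), φ.right_inv hy]
  o i j k l y hy := by rw [← h.o i j k l _ (φ.map_target hy), φ.right_inv hy]
  J := h.J.symm
  w := h.w.symm
  p y hy := by rw [← h.p _ (φ.map_target hy), φ.right_inv hy]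
  ρ i y hy := by rw [← h.ρ i _ (φ.map_target hy), φ.right_inv hy]
  A i y hy := by rw [← h.A i _ (φ.map_target hy), φ.right_inv hy]
  ms y hy := by rw [← h.ms _ (φ.map_target hy), φ.right_inv hy]
  om y hy := by rw [← h.om _ (φ.map_target hy), φ.right_inv hy]

variable (hx : x ∈ φ.source)
include hx

theorem p2_φ : b'.p2 (φ x) = b.p2 x := by
  refine congrArg (fun S => idx S (ContinuousLinearMap.id ℝ ℝ)) (funext fun s => funext fun t => ?_)
  simp only [Base.sd, Base.a2, Base.st, h.P _ _ x hx, h.o _ _ _ _ x hx]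

theorem vol_φ : b'.vol (φ x) = b.vol x := by simp only [Bg.vol, h.o _ _ _ _ x hx, h.ρ _ x hx]

theorem pp_φ : b'.pp (φ x) = b.pp x := by rw [Bg.pp, vol_φ h hx, h.p x hx, Bg.pp]

theorem jp_φ : b'.jp (φ x) = b.jp x := by rw [Bg.jp, h.J, h.p x hx, Bg.jp]

theorem W_φ (e : At φ c c' x) (i : Option κ) : b.W c i x = b'.W c' i (φ x) := by
  rw [Bg.W, Bg.W, h.A i x hx, jp_φ h hx, e.1]

theorem qd_φ (u v : Eu ν) : b'.qd (φ x) u v = b.qd x u v := by
  refine congrArg (WithLp.toLp 2) (funext fun s => ?_)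
  rw [h.J, h.ρ _ x hx, h.ρ _ x hx]

variable (e : ∀ᶠ y in 𝓝 x, At φ c c' y)
include e

theorem nab_φ (i : Option κ) :
    nab X.I b.F.e (b.W c) i c.Φ x = nab X'.I b'.F.e (b'.W c') i c'.Φ (φ x) :=
  (rel h).nab hx i (W_φ h hx e.self_of_nhds i) (e.mono fun _ h => h.2)

theorem eD_φ : b.eD c x = b'.eD c' (φ x) := by
  rw [Bg.eD, Bg.eD, h.ms x hx, e.self_of_nhds.2, (rel h).dir hx (fun a => (h.ρ a x hx).symm)
    (W_φ h hx e.self_of_nhds) (e.mono fun _ h => h.2)]

theorem fc_φ : b.fc c x = b'.fc c' (φ x) := by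
  refine congrArg (WithLp.toLp 2) (funext fun s => ?_)
  rw [jp_φ h hx, (rel h).curv hx (A' := b'.W c') fun a =>
    (e.and (φ.open_source.eventually_mem hx)).mono fun y hy => W_φ h hy.2 hy.1 a]

theorem eC_φ : b.eC c x = b'.eC c' (φ x) := by
  rw [Bg.eC, Bg.eC, p2_φ h hx, fc_φ h hx e, qd_φ h hx, h.w, h.om x hx, e.self_of_nhds.2]

theorem ed_φ : b.ed c x = b'.ed c' (φ x) := by
  simp only [Bg.ed, fc_φ h hx e, nab_φ h hx e, h.w, e.self_of_nhds.2]

theorem la_φ (k : LA b' c' (φ x)) : LA b c x where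
  sa i := ((rel h).sm hx (k.sa i)).congr_of_eventuallyEq (e.mono fun _ h => h.1 i)
  sΦ := ((rel h).sm hx k.sΦ).congr_of_eventuallyEq (e.mono fun _ h => h.2)
  pa i := by simp only [e.self_of_nhds.1, ← h.P i _ x hx, k.pa i]
  pΦ := by rw [e.self_of_nhds.2, ← pp_φ h hx, k.pΦ]

end lit

/-- change of variables over a measurable set -/
theorem lint_iso {E HM M E' HM' M' ι : Type} [NormedAddCommGroup E] [NormedSpace ℝ E]
    [FiniteDimensional ℝ E] [MeasurableSpace E] [BorelSpace E] [TopologicalSpace HM]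
    {I : ModelWithCorners ℝ E HM} [TopologicalSpace M] [ChartedSpace HM M] [IsManifold I ∞ M]
    [MeasurableSpace M] [T2Space M] [BorelSpace M] [NormedAddCommGroup E'] [NormedSpace ℝ E']
    [FiniteDimensional ℝ E'] [MeasurableSpace E'] [BorelSpace E'] [TopologicalSpace HM']
    {I' : ModelWithCorners ℝ E' HM'} [TopologicalSpace M'] [ChartedSpace HM' M'] [IsManifold I' ∞ M']
    [MeasurableSpace M'] [T2Space M'] [BorelSpace M'] [Fintype ι] {F : Pre I M ι} {F' : Pre I' M' ι}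
    {φ : OpenPartialHomeomorph M M'} (h : Iso F F' φ) {O : Set M} {O' : Set M'}
    (hO : MeasurableSet O) (hO' : MeasurableSet O') (h1 : O ⊆ φ.source) (h2 : MapsTo φ O O')
    (g : M' → ℝ≥0∞) : ∫⁻ x in O, g (φ x) ∂F.μ ≤ ∫⁻ y in O', g y ∂F'.μ := by
  calc _ = ∫⁻ x in φ.source, O.indicator (fun x => g (φ x)) x ∂F.μ := by
        rw [lintegral_indicator hO, Measure.restrict_restrict hO, inter_eq_left.2 h1]
    _ ≤ ∫⁻ x in φ.source, O'.indicator g (φ x) ∂F.μ := lintegral_mono fun x => by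
        by_cases hx : x ∈ O
        · simp only [indicator_of_mem hx, indicator_of_mem (h2 hx), le_refl]
        · simp only [indicator_of_notMem hx, zero_le]
    _ = ∫⁻ y in φ.target, O'.indicator g y ∂F'.μ := Nka63.setLIntegral_comp h _
    _ ≤ _ := (setLIntegral_le_lintegral _ _).trans (lintegral_indicator hO' _).le

/-- the cut functions depend on the configuration over the image of a ball -/
theorem lη_φ {b : Bg X.I X.M κ lam ν nc} {b' : Bg X'.I X'.M κ lam ν nc'}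
    {φ : OpenPartialHomeomorph X.M X'.M} (h : b.Lit b' φ) (hb : b.OK) (hb' : b'.OK)
    {c : Cfg X.M κ ν} {c' : Cfg X'.M κ ν} (hc : b'.Adm c') {j : Fin nc} {j' : Fin nc'}
    (h1 : (b.ct j).Ξ.target ⊆ φ.source) (h2 : ∀ y, (b'.ct j').Ξ y = φ ((b.ct j).Ξ y))
    (h3 : (b'.ct j').ρ = (b.ct j).ρ) {R : ℝ} (hρ : Kop92.Sp R (b.ct j).ρ) {η : R4 → Eu ν}
    (hη : Kop92.Sp R η) (e : ∀ y, ‖y‖ ≤ R → At φ c c' ((b.ct j).Ξ y)) :
    b.lη j η c = b'.lη j' η c' := by
  have C := hb.ct j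
  have C' := hb'.ct j'
  have s : ∀ y, (b.ct j).Ξ y ∈ φ.source := fun y => h1 ((b.ct j).Ξ.map_source (C.src ▸ trivial))
  have ta : ∀ y, ‖y‖ ≤ R → b.ta j c y = b'.ta j' c' y := fun y hy => by
    ext v
    have k : ∑ k, ((b.ct j).θ y v k - (b'.ct j').θ y v k) • b'.F.e k ((b'.ct j').Ξ y) = 0 := by
      have d1 := (iso_smAt h.iso (s y)).mdifferentiableAt (by simp)
      have d2 := (C.sm y).mdifferentiableAt (by simp)
      have k1 := C'.θ y v
      rw [show ((b'.ct j').Ξ : R4 → X'.M) = φ ∘ (b.ct j).Ξ from funext h2] at k1 ⊢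
      simp only [sub_smul, Finset.sum_sub_distrib, ← k1]
      rw [mfderiv_comp_apply y d1 d2 v, C.θ y v, map_sum, sub_eq_zero]
      exact Finset.sum_congr rfl fun k _ => by rw [map_smul, h.iso.e k _ (s y)]; rfl
    have k2 := b'.F.P_ker _ _ k
    have k3 : ∑ k, ((b.ct j).θ y v k - (b'.ct j').θ y v k) * c'.a k ((b'.ct j').Ξ y) = 0 := by
      rw [Finset.sum_congr rfl fun k _ => congrArg (_ * ·) (hc.pa k ((b'.ct j').Ξ y)).symm]
      simp only [Finset.mul_sum, ← hb'.G.P]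
      rw [Finset.sum_comm]
      refine Finset.sum_eq_zero fun i _ => ?_
      have := congrArg (· * c'.a i ((b'.ct j').Ξ y)) (k2 i)
      simp only [Finset.sum_mul, zero_mul] at this
      rw [← this]
      exact Finset.sum_congr rfl fun k _ => by rw [b'.G.F.P_symm k i]; ring
    simp only [sub_mul, Finset.sum_sub_distrib, sub_eq_zero] at k3
    simpa [Bg.ta, PiLp.inner_apply, (e y hy).1, ← h2, -Fintype.sum_option] using k3
  refine congrArg _ (funext fun y => ?_)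
  by_cases hy : R < ‖y‖
  · have : ∀ J w, hm J (η y) w = 0 := fun J w => by simp [hη y hy, hm]; rfl
    simp only [this, mul_zero]
  rw [h.J, (e y (not_lt.1 hy)).2, h2, h3]
  congr 4
  refine congrArg _ (integral_congr_ae ((Kop92.ae_mm _).mono fun p hp => ?_))
  by_cases hp' : R < ‖y + p.1‖
  · simp only [hρ _ hp', zero_mul]
  · simp only [ta _ (Kop92.norm_seg hp (not_lt.1 hy) (not_lt.1 hp'))]

variable {e : En3 κ lam ν}

/-- a neck is literal -/
theorem nk_lit {b : Bg X.I X.M κ lam ν nc} (K : Nk e b) : Bg.Lit (XL := e.Z) e.cyl b K.ψ :=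
  ⟨K.iso, K.P, K.o, K.hJ, K.hw, K.hp, K.hρ, K.hA, K.hms, K.hom⟩

variable (e) in
/-- translation -/
def sH (s : ℝ) : e.Y.M × ℝ ≃ₜ e.Y.M × ℝ := (Homeomorph.refl _).prodCongr (Homeomorph.addRight s)

theorem sH_apply (s : ℝ) (x : e.Y.M × ℝ) : sH e s x = (x.1, x.2 + s) := rfl

theorem sm_sH (s : ℝ) : ContMDiff (IC e.Y.I) (IC e.Y.I) ∞ fun x : e.Y.M × ℝ => (x.1, x.2 + s) :=
  contMDiff_fst.prodMk (contMDiff_snd.add contMDiff_const)

theorem mp_sH (s : ℝ) : MeasurePreserving (sH e s) e.D.Z.μ e.D.Z.μ :=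
  (MeasurePreserving.id e.D.F.μ).prod (measurePreserving_add_right volume s)

theorem sH_lit (s : ℝ) :
    Bg.Lit (XL := e.Z) (X := e.Z) e.cyl e.cyl (sH e s).toOpenPartialHomeomorph where
  iso := ⟨(sm_sH s).contMDiffOn, (sm_sH (-s)).contMDiffOn, fun a x _ => by
    have : HasMFDerivAt (IC e.Y.I) (IC e.Y.I) (fun x : e.Y.M × ℝ => (x.1, x.2 + s)) x
        (ContinuousLinearMap.id ℝ _) := by
      have h1 := hasMFDerivAt_fst (I := e.Y.I) (I' := 𝓘(ℝ, ℝ)) x
      have h2 := (hasMFDerivAt_snd (I := e.Y.I) (I' := 𝓘(ℝ, ℝ)) x).add (hasMFDerivAt_const s x)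
      exact (h1.prodMk h2).congr_mfderiv (ContinuousLinearMap.ext fun v =>
        Prod.ext rfl (add_zero v.2))
    refine (congrArg (· (e.cyl.F.e a x)) this.mfderiv).trans ?_
    cases a <;> rfl, by
      simp only [Homeomorph.toOpenPartialHomeomorph_source, Homeomorph.toOpenPartialHomeomorph_target,
        Measure.restrict_univ]
      exact (mp_sH s).map_eq⟩
  P i j x _ := by cases i <;> cases j <;> rfl
  o _ _ _ _ _ _ := rfl
  J := rfl
  w := rfl
  p _ _ := rfl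
  ρ _ _ _ := rfl
  A i _ _ := by cases i <;> rfl
  ms _ _ := rfl
  om _ _ := rfl

/-- the translated configuration -/
abbrev shf (s : ℝ) (c : e.ZC) : e.ZC := c.pb fun x => (x.1, x.2 + s)

theorem sl_shf (s : ℝ) (c : e.ZC) (t : ℝ) : sl (shf s c) t = sl c (t + s) := rfl

theorem shf_fz (s : ℝ) (v : e.YC) : shf s (fz v) = fz v :=
  Cfg.ext (funext fun i => by cases i <;> rfl) rfl

theorem Dw_sh {V : Type} [NormedAddCommGroup V] [NormedSpace ℝ V] (s : ℝ) (w : List (Option κ))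
    {f g : e.Y.M × ℝ → V} {x : e.Y.M × ℝ} (h : ∀ᶠ y in 𝓝 x, f y = g (y.1, y.2 + s)) :
    e.D.Z.Dw w f x = e.D.Z.Dw w g (x.1, x.2 + s) := (rel (sH_lit s)).Dw trivial w h

theorem la_sh {s : ℝ} {c c' : e.ZC} {x : e.Y.M × ℝ}
    (h : ∀ᶠ y in 𝓝 x, At (fun x => (x.1, x.2 + s)) c c' y) (k : LA e.cyl c' (x.1, x.2 + s)) :
    LA e.cyl c x := la_φ (sH_lit s) trivial h k

end Crest.Agent.X212.Cut71
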