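import Crest.Agent.X212.Cut71.Se
import Crest.Agent.X212.Sw.Lv

/-!
# Row 212, SW-CUT (helper71): `MonoStmt → CutStmt`
-/

set_option autoImplicit false
set_option linter.unusedSectionVars false
noncomputable section
open scoped Manifold ContDiff Topology InnerProductSpace ENNReal
open MeasureTheory Set Function Filter

namespace Crest.Agent.X212.Cut71
open An Sw Sob92 Cyf70 Sw.En3 Pb50
open M (Mf pm)

variable {κ lam ν : Type} [Fintype κ] [Fintype lam] [Fintype ν] [DecidableEq ν]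
  {X X' X'' XL XR : Mf 4} {nc nc' nc'' nr nr' nr'' ncL ncR nrL nrR : ℕ}

/-- what is used of the cross-section -/
def Ok (e : En3 κ lam ν) (C η : ℝ) : Prop := ∃ ρ₀ > 0, ∃ ε₀ ≥ 0, ε₀ * |C| ≤ ρ₀ / 2 ∧ Mn e C ε₀ η ∧
  (∀ v : e.YC, Crit v → ∀ r, |r - L v| ≤ ρ₀ → e.ψ r = e.ψ (L v)) ∧
  ∀ u v : e.YC, Crit u → Crit v → L u < L v → e.ψ (L u) < e.ψ (L v)

theorem ok_ev (hM : MonoStmt κ lam ν) {e : En3 κ lam ν} {g : e.Gen} (hg : g.OK) (C : ℝ) :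
    ∀ᶠ η in 𝓝[>] (0 : ℝ), Ok e C η := by
  have lv : ∀ v : e.YC, Crit v → ∃ o, L v = L (g.pt o) := fun v hv =>
    let ⟨o, h⟩ := hg.all v hv; ⟨o, hg.inv ⟨o⟩ _ _ (hg.crit o).1 h⟩
  have : ∀ᶠ ρ in 𝓝[>] (0 : ℝ), ∀ o r, |r - L (g.pt o)| ≤ ρ → e.ψ r = e.ψ (L (g.pt o)) :=
    eventually_all.2 fun o => by
      obtain ⟨ε, h0, h⟩ := Metric.eventually_nhds_iff.1 (hg.flat o)
      filter_upwards [Ioo_mem_nhdsGT h0] with ρ hρ r hr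
      exact h (by rw [Real.dist_eq]; linarith [hρ.2])
  obtain ⟨ρ, h, h0⟩ := (this.and self_mem_nhdsWithin).exists
  have h0 : 0 < ρ := h0
  obtain ⟨η, k0, k⟩ := hM e g hg C (ρ / 2 / (|C| + 1)) (by positivity)
  filter_upwards [Ioo_mem_nhdsGT k0] with η' k1
  refine ⟨ρ, h0, ρ / 2 / (|C| + 1), by positivity, ?_, fun W T q c p p' a1 a2 a3 =>
    (k W T q c p p' (Sep15.S.sml_mono a1 le_rfl k1.2.le) a2 a3).2, fun v hv => ?_, fun u v hu hv => ?_⟩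
  · rw [div_mul_eq_mul_div, div_le_iff₀ (by positivity)]
    nlinarith
  · obtain ⟨o, e⟩ := lv v hv
    exact e ▸ h o
  · obtain ⟨o, e⟩ := lv u hu
    obtain ⟨o', e'⟩ := lv v hv
    rw [e, e']
    exact hg.sep o o'

variable {d : Dt κ lam ν} [Fintype d.𝓔] {Sl : Type} [Fintype Sl]
  {T T' T'' TL TR : Type} [NormedAddCommGroup T] [NormedSpace ℝ T] [FiniteDimensional ℝ T]
  [NormedAddCommGroup T'] [NormedSpace ℝ T'] [FiniteDimensional ℝ T']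
  [NormedAddCommGroup T''] [NormedSpace ℝ T''] [FiniteDimensional ℝ T'']
  [NormedAddCommGroup TL] [NormedSpace ℝ TL] [FiniteDimensional ℝ TL]
  [NormedAddCommGroup TR] [NormedSpace ℝ TR] [FiniteDimensional ℝ TR]
  {s : StS d Sl X} {s' : StS d Sl X'} {s'' : StS d Sl X''} {sL : StS d Sl XL} {sR : StS d Sl XR}
  {σ : Cel s nc nr T} {σ' : Cel s' nc' nr' T'} {σ'' : Cel s'' nc'' nr'' T''}
  {σL : Cel sL ncL nrL TL} {σR : Cel sR ncR nrR TR}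
  {ι : Type} {l : Filter ι} [l.NeBot] {q : ι → d.W →₀ ℝ} {y : ι → σ.Pnt}
  {ρ : ι → d.𝓔 × Sl → Bool → Option ℝ} {ε : d.𝓔} {a a' a'' : Sl} {b : Bool} {τ : ι → ℝ}
  {v : (d.e ε).YC} {O O' : d.𝓔 × Sl → Prop} {π : d.𝓔 × Sl → Sl} {cc : Fin nc' → Fin nc}
  {cc' : Fin nc'' → Fin nc} {J : Finset d.W}

variable (σ J) in
/-- the terms vanish beyond `r₀` -/
def Fo (r₀ : ℝ) : Prop := ∀ w ∈ J, ∀ t ∈ σ.Q, ∀ j b, ∀ K ∈ (σ.P t).nk j, K.Inf b → ∀ x,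
  K.tm x ∈ K.J → r₀ < pm b * K.tm x → (σ.P t).fo w x = 0

theorem fo_ev (h : σ.OK) (J : Finset d.W) : ∀ᶠ r₀ in atTop, Fo σ J r₀ :=
  (eventually_all_finset J).2 fun w _ => by
    obtain ⟨r, hr⟩ := h.cfo w
    filter_upwards [eventually_ge_atTop r] with r₀ h0 t ht j b K hK hb x h1 h2
    obtain ⟨Ks, k1, k2⟩ := inf_site h.toOK ht hK hb
    refine hr t ht x fun hx => ?_
    have := (not_far Ks).1 (hx j b Ks k1 ((ng_inf k2).1 hb))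
    rw [Nd18.Nk.J, ← ng_p k2, ← ng_q k2, ← ng_tm k2] at this
    linarith [this h1]

section one
variable {t : T} {t' : T'} {t'' : T''} {φ : OpenPartialHomeomorph X'.M X.M}
  {φ' : OpenPartialHomeomorph X''.M X.M} {δ δ' r τ₀ r₀ R : ℝ}

theorem go (hσ : σ.OK) (hσ' : σ'.OK) (ht : t ∈ σ.Q) (ht' : t' ∈ σ'.Q) (ht'' : t'' ∈ σ''.Q)
    (H : Half (σ.P t) (σ'.P t') ε a a' b φ δ r O π cc J)
    (H' : Half (σ.P t) (σ''.P t'') ε a a'' (!b) φ' δ' r O' π cc' J)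
    (cap : ∀ K ∈ (σ.P t).nk (ε, a), φ.target ∩ φ'.target = K.ψ.target) (hO : ∀ j ≠ (ε, a), ¬O j → O' j)
    (hw : ∃ K ∈ (σ.P t).nk (ε, a), Icc (τ₀ - 6) (τ₀ + 6) ⊆ K.J) (hr : 2 * r = pm b * (δ' - δ))
    (f' : Fo σ' J r₀) (f'' : Fo σ'' J r₀) (h0 : r₀ ≤ r) (h1 : r₀ < pm b * (δ' - τ₀)) :
    ∃ K K', Hf (σ.P t) (σ'.P t') ε a a' b φ δ O π cc J K K' τ₀ ∧
      ∀ w ∈ J, ∀ x, dep b δ K' τ₀ x ≤ 0 → (σ.P t).fo w (φ x) = (σ'.P t').fo w x := by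
  obtain ⟨K, hK, hw⟩ := hw
  obtain ⟨-, -, K', hK', i', -⟩ := H.nk
  obtain ⟨-, -, K'', hK'', i'', -⟩ := H'.nk
  have h : Hf (σ.P t) (σ'.P t') ε a a' b φ δ O π cc J K K' τ₀ := ⟨hσ.ok t ht, hσ'.ok t' ht', ⟨r, H⟩, hK, hK',
    hw, pair_out (hσ.ok t ht) H' hK (cap K hK) hO⟩
  exact ⟨K, K', h, fun w k x => pair_fo h H H' hK'' hr h0 h1 k (f' w k t' ht' (ε, a') b K' hK' i')
    (f'' w k t'' ht'' (ε, a'') _ K'' hK'' i'')⟩

theorem cen_inf (hσ : σ.OK) (hσ' : σ'.OK) (ht : t ∈ σ.Q) (ht' : t' ∈ σ'.Q)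
    (H : Half (σ.P t) (σ'.P t') ε a a' b φ δ r O π cc J) (hc : σ'.Cen (ε, a')) : s.Inf (ε, a) (!b) := by
  obtain ⟨K, hK, K', hK', -⟩ := H.nk
  obtain ⟨K₀, k0, k1, k2⟩ := hc.2.2.2.2.2.1
  obtain ⟨K₁, k3, k4⟩ := (inf_iff hσ'.toOK ht' (ε, a') (!b)).2 ⟨K₀, k0, by cases b <;> simpa [Nk.Inf]⟩
  obtain rfl := Option.some.inj ((Option.mem_def.1 hK').symm.trans k3)
  exact (inf_iff hσ.toOK ht (ε, a) _).1 ⟨K, hK, (half_inf H hK hK').2 k4⟩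

theorem fin_side (hσ : σ.OK) (hσ' : σ'.OK) (hn : s.nk (ε, a) = none) : ∃ B, ∀ {t t' φ δ r τ₀ R},
    t ∈ σ.Q → t' ∈ σ'.Q → Half (σ.P t) (σ'.P t') ε a a' b φ δ r O π cc J → 0 ≤ R →
    (∃ K ∈ (σ.P t).nk (ε, a), Icc (τ₀ - R) (τ₀ + R) ⊆ K.J) → R - B ≤ pm b * (τ₀ - δ) := by
  refine ⟨(s'.nk (ε, a')).elim 0 fun K => |K.p.getD 0| + |K.q.getD 0|,
    fun {t t' φ δ r τ₀ R} ht ht' H h0 ⟨K, hK, hw⟩ => ?_⟩
  obtain ⟨-, -, K', hK', i', -⟩ := H.nk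
  obtain ⟨K₀, k0, k1⟩ := inf_site hσ'.toOK ht' hK' i'
  have ni : ¬K.Inf (!b) := fun k => by
    obtain ⟨_, k, -⟩ := inf_site hσ.toOK ht hK k
    simp [hn] at k
  have e := (half_nk H hK hK').2.1
  rw [ng_p k1, ng_q k1] at e
  have w1 := hw (left_mem_Icc.2 (by linarith))
  have w2 := hw (right_mem_Icc.2 (by linarith))
  rw [Option.mem_def.1 k0, Option.elim_some]
  cases b
  · cases e' : K₀.q with
    | none => exact (ni (by simpa [e', Nk.Inf] using e)).elim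
    | some x =>
      have := w2.2 (x + δ) (by simpa [e'] using e)
      simp only [pm, Bool.false_eq_true, if_false, Option.getD_some]
      linarith [le_abs_self x, abs_nonneg (K₀.p.getD 0)]
  · cases e' : K₀.p with
    | none => exact (ni (by simpa [e', Nk.Inf] using e)).elim
    | some x =>
      have := w1.1 (x + δ) (by simpa [e'] using e)
      simp only [pm, if_true, Option.getD_some]
      linarith [neg_abs_le x, abs_nonneg (K₀.q.getD 0)]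

end one

variable (y ε a a' b τ v) in
/-- the real rows of a side vanish -/
def Rw (δ : ι → ℝ) (t' : ι → T') : Prop := ∀ᶠ i in l, ∀ K : Nk (d.e ε) (σ.P (y i).1.1).bg,
  (σ.P (y i).1.1).nk (ε, a) = some K → ∀ c', (∀ K₀ : Nk (d.e ε) s'.bg, s'.nk (ε, a') = some K₀ →
    ∀ t ∈ K₀.J, sl (K₀.pb c') t = sl (pst b (τ i) v (K.pb (y i).1.2)) (t + δ i)) → σ'.R (t' i) c' = 0

variable (s l ρ ε a b τ) in
/-- the cut is far -/
def Fr (δ : ι → ℝ) : Prop := Tendsto (fun i => pm b * (τ i - δ i)) l atTop ∧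
  (s.Inf (ε, a) (!b) → ∀ r₀, ∀ᶠ i in l, ∀ r ∈ ρ i (ε, a) (!b), r₀ ≤ r + pm b * δ i)

theorem rw_zero (h : nr' = 0) (δ : ι → ℝ) (t' : ι → T') : Rw (l := l) (σ' := σ') y ε a a' b τ v δ t' :=
  .of_forall fun _ _ _ _ _ => funext fun k => absurd k.isLt (by omega)

theorem fr_zero (hp : σ.PS l q y ρ) (h : Tendsto (fun i => pm b * τ i) l atTop) :
    Fr s l ρ ε a b τ fun _ => 0 :=
  ⟨by simpa using h, fun _ r₀ => (hp.far r₀).mono fun i k r hr => by simpa using k _ _ r hr⟩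

/-- a centred side -/
theorem cen_side (hσ : σ.OK) (hp : σ.PS l q y ρ) (hw : σ.Win l y ρ (ε, a) v τ) (hv : Crit v)
    (hi : s.Inf (ε, a) (!b)) {C C₀ η η₀ : ℝ} (hC : C₀ ≤ C) (hM : Ok (d.e ε) C η)
    (hb : ∀ᶠ i in l, σ.Sm η (q i) ∧ σ.Bnd C₀ η₀ (y i)) (hJ : ∀ i, (q i).support ⊆ J)
    (hc : σ'.Cen (ε, a')) (ev : σ'.β (ε, a') b = v) (h3 : σ'.β (ε, a') (!b) = σ.β (ε, a) (!b))
    (lv : 0 < pm b * (L (σ.β (ε, a) (!b)) - L v))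
    (hf : (∀ t w, (σ.P t).fo w = 0) ∨ Tendsto (fun i => pm (!b) * τ i) l atTop) :
    ∃ δ, Fr s l ρ ε a b τ δ ∧ ∀ t', Rw (l := l) (σ' := σ') y ε a a' b τ v δ t' := by
  obtain ⟨ρ₀, r0, ε₀, e0, m1, m2, m3, m4⟩ := hM
  have hu := (hσ.gd _ _ hi).crit
  obtain ⟨δ, d1, d2, d3⟩ := cen_seq hσ hp hw hv hi hC m2 r0 e0 m1 hb rfl (m3 _ hu) (m3 _ hv) (by
      cases b <;> simp only [pm, Bool.false_eq_true, if_false, if_true] at lv ⊢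
      exacts [by linarith [m4 _ _ hu hv (by linarith)], by linarith [m4 _ _ hv hu (by linarith)]]) lv.le (by
    rcases hf with hf | hf
    · exact .of_forall fun i _ _ w _ _ _ _ => by rw [hf]; rfl
    obtain ⟨r₀, f⟩ := (fo_ev hσ J).exists
    filter_upwards [hf.eventually_ge_atTop (r₀ + 2)] with i k K hK w hw z z1 z2
    obtain ⟨K₁, k3, k4⟩ := (inf_iff hσ.toOK (y i).2.1 (ε, a) _).2 hi
    obtain rfl := Option.some.inj (hK.symm.trans k3)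
    have e := K.tm_ψ _ (K.mem_src.2 z1)
    refine f w (hJ i hw) _ (y i).2.1 (ε, a) _ K hK k4 _ (e ▸ z1) ?_
    rw [e]
    rw [pm_not] at k ⊢
    linarith [mul_sub (pm b) z.2 (τ i)])
  refine ⟨δ, ⟨d1, fun _ => d2⟩, fun t' => d3.mono fun i k K hK c' h => funext fun j => ?_⟩
  obtain ⟨-, -, -, -, -, ⟨K₀, k0, k1, k2⟩, k3⟩ := hc
  have := k K hK _ _ _ K₀ c' k1 k2 fun t => h K₀ k0 t (by simp [Nd18.Nk.J, Nd18.Jv, k1, k2])
  rw [← h3, ← ev] at this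
  rw [k3, Pz.mo, Pz.mo, Option.mem_def.1 k0, Option.elim_some, Option.elim_some, Pi.zero_apply, sub_eq_zero]
  cases b
  exacts [this.symm, this]

variable {p : Spl X XL XR nc ncL ncR d Sl T TL TR}

variable (σL σR l q y τ p) in
/-- the conclusion -/
def Out (C₀ η₀ : ℝ) : Prop :=
  ∃ (x : ι → σL.Pnt) (z : ι → σR.Pnt) (δ : ι → ℝ × ℝ), ∃ ρL ρR, σL.PS l q x ρL ∧ σR.PS l q z ρR ∧
    (∀ᶠ i in l, p.Agr (y i) (x i) (z i) (δ i) (τ i) ∧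
      ρL i (p.ε, p.aL) true = some (τ i - (δ i).1) ∧ ρR i (p.ε, p.aR) false = some ((δ i).2 - τ i)) ∧
    (∀ C' > C₀, ∀ η' < η₀, ∀ᶠ i in l, σL.Bnd C' η' (x i) ∧ σR.Bnd C' η' (z i)) ∧
    ∀ E E' : ENNReal, E < E' → (∀ᶠ i in l, (σ.P (y i).1.1).ean (y i).1.2 ≤ E) →
      ∀ᶠ i in l, (σL.P (x i).1.1).ean (x i).1.2 ≤ E' ∧ (σR.P (z i).1.1).ean (z i).1.2 ≤ E'

theorem pm_t (r : ℝ) : pm true * r = r := by simp [pm]

theorem pm_f (r r' : ℝ) : pm false * (r - r') = r' - r := by simp [pm]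

/-- both sides -/
theorem both (h : p.OK σ σL σR) (hp : σ.PS l q y ρ)
    (hw : σ.Win l y ρ (p.ε, p.a) (σL.β (p.ε, p.aL) true) τ) (hJ : ∀ i, (q i).support ⊆ J) {C₀ η₀ : ℝ}
    (hb : ∀ᶠ i in l, σ.Bnd C₀ η₀ (y i)) {tL : ι → TL} {tR : ι → TR} {δL δR : ι → ℝ}
    (h0 : ∀ᶠ i in l, (δL i, δR i) ∈ p.Δ ∧ tL i ∈ σL.Q ∧ tR i ∈ σR.Q ∧
      (y i).1.1 = p.par (tL i) (tR i) (δL i, δR i))
    (fL : Fr s l ρ p.ε p.a true τ δL) (fR : Fr s l ρ p.ε p.a false τ δR)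
    (rL : Rw (l := l) (σ' := σL) y p.ε p.a p.aL true τ (σL.β (p.ε, p.aL) true) δL tL)
    (rR : Rw (l := l) (σ' := σR) y p.ε p.a p.aR false τ (σL.β (p.ε, p.aL) true) δR tR) :
    Out σL σR l q y τ p C₀ η₀ := by
  obtain ⟨l₀, hl⟩ := h.cut J
  obtain ⟨r₀, f1, f2⟩ := ((fo_ev h.okL J).and (fo_ev h.okR J)).exists
  have g : ∀ᶠ i in l, (tL i ∈ σL.Q ∧ Go (σ' := σL) y p.ε p.a p.aL true τ δL (fun i => p.φL (δL i, δR i))
      (fun j => j ≠ (p.ε, p.a) ∧ p.side j = false) p.π (fun j => p.c (.inl j)) J i (tL i)) ∧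
      tR i ∈ σR.Q ∧ Go (σ' := σR) y p.ε p.a p.aR false τ δR (fun i => p.φR (δL i, δR i))
      (fun j => j ≠ (p.ε, p.a) ∧ p.side j = true) p.π (fun j => p.c (.inr j)) J i (tR i) := by
    filter_upwards [h0, fL.1.eventually_gt_atTop (|r₀| + |l₀|), fR.1.eventually_gt_atTop (|r₀| + |l₀|),
      hw.cl 0 6 1 one_pos] with i ⟨k0, k1, k2, k3⟩ k4 k5 ⟨K, k6, k7, _⟩
    rw [pm_t] at k4
    rw [pm_f] at k5
    have a1 := le_abs_self r₀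
    have a2 := le_abs_self l₀
    have a3 := abs_nonneg r₀
    have a4 := abs_nonneg l₀
    obtain ⟨-, -, cap, H, H'⟩ := hl _ k0 (by simp only; linarith) _ k1 _ k2
    rw [← k3] at cap H H'
    exact ⟨⟨k1, go h.ok h.okL (y i).2.1 k1 k2 H H' cap (fun j a b => ⟨a, by simpa [a] using b⟩) ⟨K, k6, k7⟩
      (by rw [pm_t]; ring) f1 f2 (by simp only; linarith) (by rw [pm_t]; simp only; linarith)⟩, k2,
      go h.ok h.okR (y i).2.1 k2 k1 H' H (fun K e => (inter_comm _ _).trans (cap K e))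
        (fun j a b => ⟨a, by simpa [a] using b⟩) ⟨K, k6, k7⟩ (by rw [pm_f]; ring) f2 f1
        (by simp only; linarith) (by rw [pm_f]; simp only; linarith)⟩
  obtain ⟨x, ρL, x1, x2, x3, x4⟩ := side h.ok h.okL hp hw rfl hJ hb (g.mono fun _ k => k.1) fL.1 fL.2 h.βL
    (fun j b' k k' => by simpa [k.2] using h.βo j b' k.1 k') rL
  obtain ⟨z, ρR, z1, z2, z3, z4⟩ := side h.ok h.okR hp hw h.mid.symm hJ hb (g.mono fun _ k => k.2) fR.1 fR.2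
    h.βR (fun j b' k k' => by simpa [k.2] using h.βo j b' k.1 k') rR
  refine ⟨x, z, fun i => (δL i, δR i), ρL, ρR, x1, z1, ?_, fun C' c1 η' c2 =>
    (x3 C' c1 η' c2).and (z3 C' c1 η' c2), fun E E' c1 c2 => (x4 E E' c1 c2).and (z4 E E' c1 c2)⟩
  filter_upwards [h0, x2, z2] with i ⟨k0, _, _, k3⟩ ⟨a1, a2, a3⟩ ⟨b1, b2, b3⟩
  rw [pm_t] at a2 a3
  rw [pm_f] at b2 b3
  exact ⟨⟨k0, by rw [a1, b1, k3], a2, b2⟩, a3, b3⟩

theorem aux (h : p.OK σ σL σR) (k : ∀ l₀, ∃ δ ∈ p.Δ, l₀ ≤ δ.2 - δ.1) : Crit (σL.β (p.ε, p.aL) true) ∧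
    (σL.Cen (p.ε, p.aL) → s.Inf (p.ε, p.a) false) ∧ (σR.Cen (p.ε, p.aR) → s.Inf (p.ε, p.a) true) := by
  obtain ⟨l₀, hl⟩ := h.cut ∅
  obtain ⟨δ, d1, d2⟩ := k l₀
  obtain ⟨tL, k1⟩ := h.okL.ne
  obtain ⟨tR, k2⟩ := h.okR.ne
  obtain ⟨k3, -, -, H, H'⟩ := hl δ d1 d2 tL k1 tR k2
  obtain ⟨-, -, K', hK', i', -⟩ := H.nk
  exact ⟨(h.okL.gd _ _ ((inf_iff h.okL.toOK k1 (p.ε, p.aL) true).1 ⟨K', hK', i'⟩)).crit,
    cen_inf h.ok h.okL k3 k1 H, cen_inf h.ok h.okR k3 k2 H'⟩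

/-- the wall of a long finite neck -/
theorem fin_out (h : p.OK σ σL σR) (hp : σ.PS l q y ρ)
    (hw : σ.Win l y ρ (p.ε, p.a) (σL.β (p.ε, p.aL) true) τ) (hJ : ∀ i, (q i).support ⊆ J) {C₀ η₀ : ℝ}
    (hb : ∀ᶠ i in l, σ.Bnd C₀ η₀ (y i)) (hn : s.nk (p.ε, p.a) = none) (nL : nrL = 0) (nR : nrR = 0)
    (hj : Injective p.j)
    (hs : ∀ l₀, ∃ l, ∀ t ∈ σ.Q, l ≤ (σ.P t).len (p.ε, p.a) →
      ∃ tL ∈ σL.Q, ∃ tR ∈ σR.Q, ∃ δ ∈ p.Δ, l₀ ≤ δ.2 - δ.1 ∧ t = p.par tL tR δ) :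
    Out σL σR l q y τ p C₀ η₀ := by
  have ex : ∀ l₀, ∀ᶠ i in l, ∃ u : TL × TR × ℝ × ℝ, u.1 ∈ σL.Q ∧ u.2.1 ∈ σR.Q ∧ u.2.2 ∈ p.Δ ∧
      l₀ ≤ u.2.2.2 - u.2.2.1 ∧ (y i).1.1 = p.par u.1 u.2.1 u.2.2 := fun l₀ => by
    obtain ⟨l₁, hl⟩ := hs l₀
    filter_upwards [hw.cl 0 |l₁| 1 one_pos] with i ⟨K, k1, k2, _⟩
    have ni : ∀ b, ¬K.Inf b := fun b k => by
      obtain ⟨_, k, -⟩ := inf_site h.ok.toOK (y i).2.1 k1 k
      simp [hn] at k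
    obtain ⟨a, ea⟩ := Option.ne_none_iff_exists'.1 (ni false)
    obtain ⟨b, eb⟩ := Option.ne_none_iff_exists'.1 (ni true)
    obtain ⟨tL, a1, tR, a2, δ, a3⟩ := hl _ (y i).2.1 (by
      rw [Pz.len, Option.mem_def.1 k1, Option.elim_some, ea, eb, Option.getD_some, Option.getD_some]
      have a0 := abs_nonneg l₁
      linarith [(k2 (left_mem_Icc.2 (by linarith))).1 a ea, (k2 (right_mem_Icc.2 (by linarith))).2 b eb,
        le_abs_self l₁])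
    exact ⟨(tL, tR, δ), a1, a2, a3⟩
  obtain ⟨u, hu'⟩ := (ex 0).choice
  obtain ⟨l₀, hl⟩ := h.cut ∅
  have H : ∀ᶠ i in l, l₀ ≤ (u i).2.2.2 - (u i).2.2.1 := by
    filter_upwards [hu', ex l₀] with i ⟨_, _, _, _, k⟩ ⟨u', _, _, _, k1, k2⟩
    exact k1.trans_eq (congrArg (·.2.2) (hj (k2.symm.trans k)))
  have ni : ∀ b, ¬s.Inf (p.ε, p.a) b := fun b ⟨_, k, _⟩ => by simp [hn] at k
  obtain ⟨BL, hL⟩ := fin_side (a' := p.aL) (b := true) (J := ∅) (π := p.π) (cc := fun j => p.c (.inl j))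
    (O := fun j => j ≠ (p.ε, p.a) ∧ p.side j = false) h.ok h.okL hn
  obtain ⟨BR, hR⟩ := fin_side (a' := p.aR) (b := false) (J := ∅) (π := p.π) (cc := fun j => p.c (.inr j))
    (O := fun j => j ≠ (p.ε, p.a) ∧ p.side j = true) h.ok h.okR hn
  have key : ∀ R, ∀ᶠ i in l, R ≤ pm true * (τ i - (u i).2.2.1) ∧ R ≤ pm false * (τ i - (u i).2.2.2) :=
    fun R => by
      filter_upwards [hu', H, hw.cl 0 (|R| + |BL| + |BR|) 1 one_pos] with i ⟨k1, k2, k3, _, k4⟩ k5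
        ⟨K, k6, k7, _⟩
      obtain ⟨-, -, -, H, H'⟩ := hl _ k3 k5 _ k1 _ k2
      rw [← k4] at H H'
      have := hL (y i).2.1 k1 H (by positivity) ⟨K, k6, k7⟩
      have := hR (y i).2.1 k2 H' (by positivity) ⟨K, k6, k7⟩
      constructor <;> linarith [le_abs_self R, le_abs_self BL, le_abs_self BR, abs_nonneg BL, abs_nonneg BR]
  exact both h hp hw hJ hb (tL := fun i => (u i).1) (tR := fun i => (u i).2.1)
    (hu'.mono fun i ⟨k1, k2, k3, _, k4⟩ => ⟨k3, k1, k2, k4⟩)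
    ⟨tendsto_atTop.2 fun R => (key R).mono fun _ k => k.1, fun k => (ni _ k).elim⟩
    ⟨tendsto_atTop.2 fun R => (key R).mono fun _ k => k.2, fun k => (ni _ k).elim⟩
    (rw_zero nL _ _) (rw_zero nR _ _)

theorem cutAt {C η : ℝ} (hM : ∀ ε, Ok (d.e ε) C η) :
    CutAt d Sl X XL XR nc nr ncL nrL ncR nrR T TL TR C η := by
  intro s sL sR σ σL σR p h ι 𝒰 q y ρ q₀ τ C₀ η₀ hC hp ⟨J₀, hJ₀, _⟩ hb hw ht
  classical
  have hJ : ∀ i, (q i).support ⊆ J₀ ∪ q₀.support := fun i w hw => by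
    by_contra k
    rw [Finset.mem_union, not_or] at k
    exact Finsupp.mem_support_iff.1 hw ((hJ₀ i w k.1).trans (Finsupp.notMem_support_iff.1 k.2))
  have hb' := hb.mono fun _ k => k.2
  obtain ⟨tL, qL⟩ := h.okL.ne
  obtain ⟨tR, qR⟩ := h.okR.ne
  have cL := fun hv hi hc lv hf => cen_side (b := true) (σ' := σL) (a' := p.aL) h.ok hp hw hv hi hC (hM _) hb
    hJ hc rfl (h.βL hi) lv hf
  have cR := fun hv hi hc lv hf => cen_side (b := false) (σ' := σR) (a' := p.aR) h.ok hp hw hv hi hC (hM _) hb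
    hJ hc h.mid.symm (h.βR hi) lv hf
  change Out σL σR 𝒰 q y τ p C₀ η₀
  rcases h.kind with ⟨-, hn, -, nL, nR, hj, -, hs⟩ | ⟨ho, n, nL, hc, hΔ, j1, j2, j3, -⟩ |
    ⟨ho, n, nR, hc, hΔ, j1, j2, j3, -⟩ | ⟨ho, hc, hcL, hcR, hΔ⟩
  · exact fin_out h hp hw hJ hb' hn nL nR hj.1 hs
  · obtain ⟨hv, -, hi⟩ := aux h fun l₀ => ⟨(0, l₀), by simp [hΔ], by simp⟩
    obtain ⟨δ, d1, d2⟩ := cR hv (hi hc) hc (by rw [pm_f]; exact sub_pos.2 (h.lvR ho)) (.inr (ht _ ho n))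
    choose u hu using fun i => j2.2 (y i).1.1
    exact both h hp hw hJ hb' (tL := u) (tR := fun _ => tR) (.of_forall fun i => ⟨by simp [hΔ],
      j3 _ (mem_of_eq_of_mem (hu i) (y i).2.1), qR, (hu i).symm.trans (j1 _ _ _).symm⟩) (fr_zero hp (ht _ ho n)) d1
      (rw_zero nL _ _) (d2 _)
  · obtain ⟨hv, hi, -⟩ := aux h fun l₀ => ⟨(-l₀, 0), by simp [hΔ], by simp⟩
    obtain ⟨δ, d1, d2⟩ := cL hv (hi hc) hc (by
      rw [pm_t]; exact sub_pos.2 (h.lvL (hi hc) (.inl (by simp [ho])))) (.inr (ht _ ho n))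
    choose u hu using fun i => j2.2 (y i).1.1
    exact both h hp hw hJ hb' (tL := fun _ => tL) (tR := u) (.of_forall fun i => ⟨by simp [hΔ], qL,
      j3 _ (mem_of_eq_of_mem (hu i) (y i).2.1), (hu i).symm.trans (j1 _ _ _).symm⟩) d1 (fr_zero hp (ht _ ho n))
      (d2 _) (rw_zero nR _ _)
  · obtain ⟨hv, hi, hi'⟩ := aux h fun l₀ => ⟨(0, l₀), by simp [hΔ], by simp⟩
    obtain ⟨δ, d1, d2⟩ := cL hv (hi hcL) hcL (by
      rw [pm_t]; exact sub_pos.2 (h.lvL (hi hcL) (.inr hc.1))) (.inl hc.2.2.2.2.1)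
    obtain ⟨δ', d3, d4⟩ := cR hv (hi' hcR) hcR (by rw [pm_f]; exact sub_pos.2 (h.lvR ho))
      (.inl hc.2.2.2.2.1)
    exact both h hp hw hJ hb' (tL := fun _ => tL) (tR := fun _ => tR) (.of_forall fun i =>
      ⟨by simp [hΔ], qL, qR, hc.2.2.1.elim _ _⟩) d1 d3 (d2 _) (d4 _)

/-- **SW-CUT** -/
theorem cut (hM : MonoStmt κ lam ν) : CutStmt κ lam ν := fun d _ _ _ Γ C => by
  obtain ⟨η, h, h0⟩ := ((eventually_all.2 fun ε => ok_ev hM (Γ.ok ε) C).and self_mem_nhdsWithin).exists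
  exact ⟨η, h0, fun _ _ _ _ _ _ _ _ _ _ _ _ _ _ _ _ _ _ _ _ _ => cutAt h⟩

end Crest.Agent.X212.Cut71
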