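import Crest.Agent.X212.Cut71.Hg
import Crest.Agent.X212.Cut71.Ctr

/-!
# Row 212, SW-CUT (helper71): sequences; the centring shifts; one side of the cut
-/

set_option autoImplicit false
set_option linter.unusedSectionVars false
noncomputable section
open scoped Manifold ContDiff Topology InnerProductSpace ENNReal
open MeasureTheory Set Function Filter

namespace Crest.Agent.X212.Cut71
open An Sw Sob92 Cyf70 Sw.En3 Pb50
open M (Mf pm)
open Nd18 (Jv isOpen_Jv)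
open Sep15.S (mem_Jv_map)

variable {κ lam ν : Type} [Fintype κ] [Fintype lam] [Fintype ν] [DecidableEq ν]
  {X X' : Mf 4} {nc nc' nr nr' : ℕ}

section cyl
variable {e : En3 κ lam ν} {c : e.ZC} {u v : e.YC} {b : Bool} {ρ τ t : ℝ}

theorem cen_root' (he : e.OK) (hc : e.cyl.Adm c) (h0 : 0 ≤ ρ)
    (hu : ∀ r, |r - L u| ≤ ρ → e.ψ r = e.ψ (L u)) (hv : ∀ r, |r - L v| ≤ ρ → e.ψ r = e.ψ (L v))
    (lt : 0 < pm b * (e.ψ (L u) - e.ψ (L v)))
    (bd : ∀ t, -ρ ≤ pm b * (L (sl c t) - L v) ∧ pm b * (L (sl c t) - L u) ≤ ρ) {T₁ T₂ : ℝ}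
    (h1 : ∀ t, pm b * t < T₁ → |L (sl c t) - L u| ≤ ρ)
    (h2 : ∀ t, T₂ < pm b * t → |L (sl c t) - L v| ≤ ρ) :
    ∃ δ, (∀ (X : Mf 4) (nc : ℕ) (bg : Bg X.I X.M κ lam ν nc) (K : Nk e bg) (c' : Cfg X.M κ ν),
      K.p = none → K.q = none → (∀ t, sl (K.pb c') t = sl c (t + δ)) →
        K.mo (!b) (L u) c' = K.mo b (L v) c') ∧
      (∀ T, (∀ t, pm b * t < T → |L (sl c t) - L u| ≤ ρ) → T - 2 ≤ pm b * δ) ∧
      ∀ T, (∀ t, T < pm b * t → |L (sl c t) - L v| ≤ ρ) → pm b * δ ≤ T + 2 := by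
  cases b <;> simp only [pm, if_true, Bool.false_eq_true, if_false, one_mul, neg_mul] at *
  · obtain ⟨δ, k1, k2, k3⟩ := cen_root he hc h0 hv hu (by linarith)
      (fun t => ⟨by linarith [(bd t).2], by linarith [(bd t).1]⟩) (T₁ := -T₂) (T₂ := -T₁)
      (fun t ht => h2 t (by linarith)) fun t ht => h1 t (by linarith)
    exact ⟨δ, fun X nc bg K c' a b c => (k1 X nc bg K c' a b c).symm,
      fun T h => by linarith [k3 (-T) fun t ht => h t (by linarith)],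
      fun T h => by linarith [k2 (-T) fun t ht => h t (by linarith)]⟩
  · exact cen_root he hc h0 hu hv (by linarith)
      (fun t => ⟨by linarith [(bd t).1], by linarith [(bd t).2]⟩) h1 h2

theorem lev_far (he : e.OK) (hu : Crit u) {ε : ℝ} (hε : 0 < ε) : ∃ η > 0, ∀ (c : e.ZC) (s : Bool)
    (T : ℝ), (∀ x : e.Y.M × ℝ, T < pm s * x.2 → LA e.cyl c x) → (∀ w : List (Option κ), w.length ≤ 5 →
      tlz c u {t | T < pm s * t} w ≤ ENNReal.ofReal η) →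
    ∀ t, T + 4 < pm s * t → |L (sl c t) - L u| ≤ ε := by
  obtain ⟨η, h0, h1⟩ := lev he hu hε
  obtain ⟨η', h2, h3⟩ := cl_of_tlz he 1 h0
  refine ⟨η', h2, fun c s T hc h t ht => ?_⟩
  have k : ∀ t' ∈ Ioo (t - 4) (t + 4), T < pm s * t' := fun t' h => by
    have : |pm s * (t' - t)| < 4 := by rw [abs_pm, abs_lt]; constructor <;> linarith [h.1, h.2]
    linarith [(abs_lt.1 this).1, mul_sub (pm s) t' t]
  exact (h1 c (win t) isOpen_Ioo (fun x hx => hc x (k _ ⟨by linarith [hx.2.1], by linarith [hx.2.2]⟩))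
    (h3 c u t hu.1 (fun x hx => hc x (k _ hx.2)) fun w hw => (tlz_mono k).trans (h w hw)) t
    ⟨by linarith, by linarith⟩).1

theorem ev_words {α : Type} {l : Filter α} {p : List (Option κ) → α → Prop} (k : ℕ)
    (h : ∀ w, ∀ᶠ i in l, p w i) : ∀ᶠ i in l, ∀ w : List (Option κ), w.length ≤ k → p w i :=
  (eventually_all_finite (List.finite_length_le _ k)).2 fun w _ => h w

variable {bg : Bg X.I X.M κ lam ν nc} {K : Nk e bg} {c : Cfg X.M κ ν} {s : Bool}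

theorem asy_lev (he : e.OK) (hu : Crit u) (hs : K.Inf s) (hc : bg.Adm c) (h : K.Asy s u c) {ε : ℝ}
    (hε : 0 < ε) : ∃ T, ∀ t, T < pm s * t → |L (sl (K.pb c) t) - L u| ≤ ε := by
  obtain ⟨η, h0, h1⟩ := lev_far he hu hε
  obtain ⟨T, h2, h3⟩ := h
  obtain ⟨T₁, -, h4⟩ := nd_basis.eventually_iff.1 (ev_J K hs)
  obtain ⟨n, h5⟩ := (ev_words 5 fun w => (tlz_tendsto isOpen_Jv.measurableSet h2 h3 w).eventually
    (ge_mem_nhds (ENNReal.ofReal_pos.2 h0))).exists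
  have k : ∀ t, max (T + n) T₁ < pm s * t → t ∈ K.J := fun t ht =>
    h4 (x := (Classical.arbitrary _, t)) ((le_max_right _ _).trans_lt ht)
  exact ⟨_, h1 _ s _ (fun x hx => la_ψ K (K.mem_src.2 (k _ hx)) (.of_adm hc _)) fun w hw =>
    le_trans (tlz_mono fun t ht => by exact ⟨k t ht, (le_max_left (T + n) T₁).trans_lt ht⟩) (h5 w hw)⟩

theorem deep_side (hs : K.Inf (!b)) (hw : Icc (τ - 6) (τ + 6) ⊆ K.J) (ht : pm b * (t - τ) ≤ 3) :
    t ∈ K.deep 2 := by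
  have k1 := (hw (left_mem_Icc.2 (by linarith))).1
  have k2 := (hw (right_mem_Icc.2 (by linarith))).2
  cases b <;> simp only [pm, Nk.Inf, Bool.not_true, Bool.not_false, if_true, Bool.false_eq_true,
    if_false] at hs ht
  · exact mem_Jv_map.2 ⟨fun a ha => by linarith [k1 a ha], by simp [hs]⟩
  · exact mem_Jv_map.2 ⟨by simp [hs], fun a ha => by linarith [k2 a ha]⟩

theorem ng_tl {bg' : Bg X.I X.M κ lam ν nc'} {K' : Nk e bg'} (h : K'.ng = K.ng) (T : ℝ)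
    (w : List (Option κ)) : K'.tl s u c T w = K.tl s u c T w := by
  simp only [Nk.tl, ng_far h, Nk.pb, ng_ψ h]

end cyl

variable {d : Dt κ lam ν} [Fintype d.𝓔] {Sl : Type} [Fintype Sl]
  {T T' : Type} [NormedAddCommGroup T] [NormedSpace ℝ T] [FiniteDimensional ℝ T]
  [NormedAddCommGroup T'] [NormedSpace ℝ T'] [FiniteDimensional ℝ T']
  {s : StS d Sl X} {s' : StS d Sl X'} {σ : Cel s nc nr T} {σ' : Cel s' nc' nr' T'}
  {ι : Type} {l : Filter ι} [l.NeBot] {q : ι → d.W →₀ ℝ} {y : ι → σ.Pnt} {ρ : ι → d.𝓔 × Sl → Bool → Option ℝ}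
  {ε : d.𝓔} {a a' : Sl} {b : Bool} {τ δ : ι → ℝ} {v : (d.e ε).YC}

theorem reg_fam (h : σ.toFam.OK) {t : T} (ht : t ∈ σ.Q) (ρ : d.𝓔 × Sl → Bool → Option ℝ) :
    (σ.P t).reg ρ = s.reg ρ := Set.ext fun _ =>
  ends_iff h ht fun _ _ _ _ _ e => by simp only [ng_far e, ng_ψ e]

section win
variable (hw : σ.Win l y ρ (ε, a) v τ) (hv : Crit v) (b)
include hw hv

theorem winp (k : ℕ) (R : ℝ) {η : ℝ} (h0 : 0 < η) : ∀ᶠ i in l, ∀ K : Nk (d.e ε) (σ.P (y i).1.1).bg,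
    (σ.P (y i).1.1).nk (ε, a) = some K → Icc (τ i - R) (τ i + R) ⊆ K.J ∧
    (∀ b', K.Inf b' → ∀ r ∈ ρ i (ε, a) b', pm b' * τ i + R ≤ r) ∧
    Cl (K.pb (y i).1.2) (fz v) (Ioo (τ i - R) (τ i + R)) k η ∧
    Cl (pst b (τ i) v (K.pb (y i).1.2)) (fz v) (Ioo (τ i - R) (τ i + R)) k η := by
  obtain ⟨C, h1, h2⟩ := pst_cl (e := d.e ε) k
  have h3 : 0 < min η (η / C) := by positivity
  filter_upwards [hw.cl k R _ h3] with i ⟨K₀, k0, k1, k2, k3⟩ K hK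
  obtain rfl := Option.some.inj (hK.symm.trans k0)
  refine ⟨k1, k2, cl_mono k3 subset_rfl le_rfl (min_le_left _ _), cl_mono (h2 b _ v _ _ _ isOpen_Ioo
    h3.le hv.1 (fun x hx => la_ψ K (K.mem_src.2 (k1 (Ioo_subset_Icc_self hx.2))) (.of_adm (y i).2.2.1 _))
    k3) subset_rfl le_rfl ?_⟩
  exact (mul_le_mul_of_nonneg_left (min_le_right _ _) h1.le).trans (mul_div_cancel₀ _ h1.ne').le

theorem winl (he : (d.e ε).OK) (R : ℝ) {η : ℝ} (h0 : 0 < η) : ∀ᶠ i in l,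
    ∀ K : Nk (d.e ε) (σ.P (y i).1.1).bg, (σ.P (y i).1.1).nk (ε, a) = some K →
    ∀ t ∈ Ioo (τ i - R) (τ i + R), |L (sl (pst b (τ i) v (K.pb (y i).1.2)) t) - L v| ≤ η ∧
      |nm (sl (pst b (τ i) v (K.pb (y i).1.2)) t) - nm v| ≤ η ∧
      gn (sl (pst b (τ i) v (K.pb (y i).1.2)) t) ≤ η := by
  obtain ⟨η', h1, h2⟩ := lev he hv h0
  filter_upwards [winp b hw hv 1 R h1] with i k K hK
  obtain ⟨k1, -, -, k3⟩ := k K hK
  exact h2 _ _ isOpen_Ioo (fun x hx => la_pst hv.1 fun _ =>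
    la_ψ K (K.mem_src.2 (k1 (Ioo_subset_Icc_self hx.2))) (.of_adm (y i).2.2.1 _)) k3

end win

/-- the centring shifts -/
theorem cen_seq (hσ : σ.OK) (hp : σ.PS l q y ρ) (hw : σ.Win l y ρ (ε, a) v τ) (hv : Crit v)
    (hi : s.Inf (ε, a) (!b)) {C C₀ η η₀ ε₀ ρ₀ : ℝ} (hC : C₀ ≤ C) (hM : Mn (d.e ε) C ε₀ η) (h0 : 0 < ρ₀)
    (h1 : 0 ≤ ε₀) (h2 : ε₀ * |C| ≤ ρ₀ / 2) (hb : ∀ᶠ i in l, σ.Sm η (q i) ∧ σ.Bnd C₀ η₀ (y i))
    {u : (d.e ε).YC} (eu : σ.β (ε, a) (!b) = u)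
    (fu : ∀ r, |r - L u| ≤ ρ₀ → (d.e ε).ψ r = (d.e ε).ψ (L u))
    (fv : ∀ r, |r - L v| ≤ ρ₀ → (d.e ε).ψ r = (d.e ε).ψ (L v))
    (lt : 0 < pm b * ((d.e ε).ψ (L u) - (d.e ε).ψ (L v))) (le : 0 ≤ pm b * (L u - L v))
    (hf : ∀ᶠ i in l, ∀ K : Nk (d.e ε) (σ.P (y i).1.1).bg, (σ.P (y i).1.1).nk (ε, a) = some K →
      ∀ w ∈ (q i).support, ∀ z : (d.e ε).Y.M × ℝ, z.2 ∈ K.J → pm b * (z.2 - τ i) < 2 →
        (σ.P (y i).1.1).fo w (K.ψ z) = 0) :
    ∃ δ : ι → ℝ, Tendsto (fun i => pm b * (τ i - δ i)) l atTop ∧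
      (∀ r₀, ∀ᶠ i in l, ∀ r ∈ ρ i (ε, a) (!b), r₀ ≤ r + pm b * δ i) ∧
      ∀ᶠ i in l, ∀ K : Nk (d.e ε) (σ.P (y i).1.1).bg, (σ.P (y i).1.1).nk (ε, a) = some K →
        ∀ (X' : Mf 4) (nc' : ℕ) (bg : Bg X'.I X'.M κ lam ν nc') (K' : Nk (d.e ε) bg) c',
          K'.p = none → K'.q = none →
          (∀ t, sl (K'.pb c') t = sl (pst b (τ i) v (K.pb (y i).1.2)) (t + δ i)) →
          K'.mo (!b) (L u) c' = K'.mo b (L v) c' := by
  have he : (d.e ε).OK := hσ.site.en (ε, a)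
  have hu : Crit u := eu ▸ (hσ.gd _ _ hi).crit
  obtain ⟨Ks, hKs, hi'⟩ := hi
  have ex : ∀ i, ∃ K : Nk (d.e ε) (σ.P (y i).1.1).bg, (σ.P (y i).1.1).nk (ε, a) = some K ∧
      K.ng = Ks.ng := fun i => hσ.en _ (y i).2.1 (ε, a) Ks hKs
  choose K hK ng using ex
  have inf : ∀ i, (K i).Inf (!b) := fun i => (ng_inf (ng i)).2 hi'
  have sq := pm_sq b
  have tail : ∀ R, ∀ᶠ i in l, ∀ r ∈ ρ i (ε, a) (!b), -r + R ≤ pm b * τ i ∧ ∀ t, pm b * t < -r + R →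
      |L (sl ((K i).pb (y i).1.2) t) - L u| ≤ ρ₀ / 2 := fun R => by
    obtain ⟨η', k0, k1⟩ := lev_far he hu (half_pos h0)
    filter_upwards [ev_words 5 fun w => hp.tl (R + 4) w η' k0, winp b hw hv 0 (|R| + 6) one_pos]
      with i k2 k3 r hr
    obtain ⟨k4, k5, -⟩ := k3 _ (hK i)
    have k6 := k5 _ (inf i) r hr
    rw [pm_not] at k6
    have k7 : ∀ t, r - (R + 4) < pm (!b) * t → t ∈ (K i).J := fun t ht => deep_J _ two_pos
      (deep_side (τ := τ i) (inf i) ((Icc_subset_Icc (by linarith [abs_nonneg R]) (by linarith [abs_nonneg R])).trans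
        k4) (by rw [pm_not] at ht; linarith [le_abs_self R, mul_sub (pm b) t (τ i)]))
    refine ⟨by linarith [le_abs_self R], fun t ht => k1 _ (!b) (r - (R + 4)) (fun x hx =>
      la_ψ _ ((K i).mem_src.2 (k7 _ hx)) (.of_adm (y i).2.2.1 _)) (fun w hw => ?_) t
      (by rw [pm_not]; linarith)⟩
    have := k2 w hw (ε, a) _ Ks hKs hi' r hr
    rw [eu, ← ng_tl (ng i)] at this
    exact le_trans (tlz_mono fun t ht => by exact ⟨k7 t ht, ht⟩) this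
  have key : ∀ᶠ i in l, ∃ δ, (∀ (X' : Mf 4) (nc' : ℕ) (bg : Bg X'.I X'.M κ lam ν nc')
      (K' : Nk (d.e ε) bg) c', K'.p = none → K'.q = none →
        (∀ t, sl (K'.pb c') t = sl (pst b (τ i) v ((K i).pb (y i).1.2)) (t + δ)) →
        K'.mo (!b) (L u) c' = K'.mo b (L v) c') ∧
      (∀ T, (∀ t, pm b * t < T → |L (sl (pst b (τ i) v ((K i).pb (y i).1.2)) t) - L u| ≤ ρ₀) →
        T - 2 ≤ pm b * δ) ∧
      ∀ T, (∀ t, T < pm b * t → |L (sl (pst b (τ i) v ((K i).pb (y i).1.2)) t) - L v| ≤ ρ₀) →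
        pm b * δ ≤ T + 2 := by
    filter_upwards [tail 3, winp b hw hv 0 6 one_pos, winl b hw hv he 3 (half_pos h0), hp.eq, hb, hf]
      with i k1 k2 k3 k4 k5 k6
    obtain ⟨w1, w2, -⟩ := k2 _ (hK i)
    have P := hσ.ok _ (y i).2.1
    obtain ⟨T, t1, t2⟩ : ∃ T, (∀ t, pm b * t < T → |L (sl ((K i).pb (y i).1.2) t) - L u| ≤ ρ₀ / 2) ∧
        ∀ r ∈ ρ i (ε, a) (!b), -r ≤ T - 3 := by
      cases e : ρ i (ε, a) (!b) with
      | some r => exact ⟨_, (k1 r e).2, fun _ h => Option.some.inj h ▸ by linarith⟩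
      | none =>
        obtain ⟨T, h⟩ := asy_lev he hu (inf i) (y i).2.2.1
          (eu ▸ (y i).2.2.2 (ε, a) _ (K i) (hK i) (inf i)) (half_pos h0)
        exact ⟨-T, fun t ht => h t (by rw [pm_not]; linarith), by simp⟩
    obtain ⟨lo, hi, m1, m2, m3⟩ : ∃ lo hi, (∀ t ∈ Ioo lo hi, T - 3 < pm b * t ∧ pm b * (t - τ i) < 2) ∧
        (∀ t ∈ Ioo (lo - 1) (hi + 1), pm b * (t - τ i) ≤ 3) ∧
        ∀ t, pm b * t ∈ Icc (T - 1) (pm b * τ i) → lo < t - 1 ∧ t + 1 < hi := by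
      cases b <;> simp only [pm, if_true, Bool.false_eq_true, if_false]
      · exact ⟨τ i - 2, -T + 3, fun t h => ⟨by linarith [h.2], by linarith [h.1]⟩,
          fun t h => by linarith [h.1], fun t h => ⟨by linarith [h.2], by linarith [h.1]⟩⟩
      · exact ⟨T - 3, τ i + 2, fun t h => ⟨by linarith [h.1], by linarith [h.2]⟩,
          fun t h => by linarith [h.2], fun t h => ⟨by linarith [h.1], by linarith [h.2]⟩⟩
    have j1 : ∀ t, pm b * (t - τ i) ≤ 3 → t ∈ (K i).J := fun t h =>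
      deep_J _ two_pos (deep_side (inf i) w1 h)
    refine cen_root' he (adm_of fun x => la_pst hv.1 fun h => la_ψ _ ((K i).mem_src.2
      (j1 _ (by linarith))) (.of_adm (y i).2.2.1 _)) h0.le fu fv lt
      (lev_bd le h0.le t1 (fun t ht => (k3 _ (hK i) t ht).1) fun s₁ s₂ h h' h'' => le_trans
        (mono_pt P (i := (ε, a)) (hK i) hM h1 hC (y i).2.2.1 (k5.1 _ (y i).2.1) k5.2.sup k5.2.en
          (fun t h => deep_side (inf i) w1 (m2 t h))
          (fun w hw z hz => k6 _ (hK i) w hw z (j1 _ (by linarith [(m1 _ hz.2).2])) (m1 _ hz.2).2)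
          (fun x hx => k4.1 x ?_) h (m3 _ h').1 (m3 _ h'').2) (by linarith))
      (T₁ := min T (pm b * τ i)) (T₂ := pm b * τ i + 2) (fun t ht => ?_) fun t ht => ?_
    · obtain ⟨z, hz, rfl⟩ := hx
      obtain ⟨z1, z2⟩ := m1 _ hz.2
      have z3 := (K i).mem_src.2 (j1 _ (by linarith) : z.2 ∈ _)
      refine reg_fam hσ.toOK (y i).2.1 _ ▸ fun j b' K₁ e1 e2 r hr => (not_far K₁).2 fun ht => ?_
      by_cases e : j = (ε, a)
      · subst e
        obtain rfl := Option.some.inj ((hK i).symm.trans e1)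
        rw [(K i).tm_ψ _ z3]
        rcases eq_or_not b' b with rfl | rfl
        · linarith [w2 _ e2 r hr, mul_sub (pm b') z.2 (τ i)]
        · rw [pm_not]; linarith [t2 r hr]
      · exact (disjoint_left.1 (P.dj e K₁ e1 (K i) (hK i)) ((tm_tgt K₁).2 ht)
          ((K i).ψ.map_source z3)).elim
    · rw [sl_pst (by linarith [min_le_right T (pm b * τ i), mul_sub (pm b) t (τ i)])]
      linarith [t1 t (ht.trans_le (min_le_left _ _))]
    · rw [sl_pst' (by linarith [mul_sub (pm b) t (τ i)]), sub_self, abs_zero]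
      exact h0.le
  obtain ⟨δ, hδ⟩ := key.choice
  refine ⟨δ, tendsto_atTop.2 fun R => ?_, fun R => ?_, hδ.mono fun i h K' e => ?_⟩
  · filter_upwards [hδ, winl b hw hv he (|R| + 3) h0] with i k1 k2
    suffices pm b * δ i ≤ pm b * τ i - (|R| + 2) + 2 by linarith [le_abs_self R, mul_sub (pm b) (τ i) (δ i)]
    refine k1.2.2 _ fun t ht => ?_
    rcases le_or_gt 2 (pm b * (t - τ i)) with k | k
    · rw [sl_pst' k, sub_self, abs_zero]
      exact h0.le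
    have k3 : |pm b * (t - τ i)| < |R| + 3 :=
      abs_lt.2 ⟨by linarith [mul_sub (pm b) t (τ i)], by linarith [abs_nonneg R]⟩
    rw [abs_pm, abs_lt] at k3
    exact (k2 _ (hK i) t ⟨by linarith, by linarith⟩).1
  · filter_upwards [hδ, tail (R + 2)] with i k1 k2 r hr
    suffices -r + (R + 2) - 2 ≤ pm b * δ i by linarith
    refine k1.2.1 _ fun t ht => ?_
    rw [sl_pst (by linarith [(k2 r hr).1, mul_sub (pm b) t (τ i)])]
    linarith [(k2 r hr).2 t ht]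
  · obtain rfl := Option.some.inj ((hK i).symm.trans e)
    exact h.1

end Crest.Agent.X212.Cut71
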