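import Crest.Agent.X212.Cut71.Sd

/-!
# Row 212, SW-CUT (helper71): one side of the cut, for sequences
-/

set_option autoImplicit false
set_option linter.unusedSectionVars false
noncomputable section
open scoped Manifold ContDiff Topology InnerProductSpace ENNReal
open MeasureTheory Set Function Filter

namespace Crest.Agent.X212.Cut71
open An Sw Sob92 Cyf70 Sw.En3 Pb50
open M (Mf pm)

variable {κ lam ν : Type} [Fintype κ] [Fintype lam] [Fintype ν] [DecidableEq ν]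
  {X X' : Mf 4} {nc nc' nr nr' : ℕ}

section rho
variable {𝓔 Sl : Type} {O : 𝓔 × Sl → Prop} {π : 𝓔 × Sl → Sl} {j₀ j₀' j j' : 𝓔 × Sl} {b s : Bool}
  {I : Prop} {D D' r : ℝ} {ρ : 𝓔 × Sl → Bool → Option ℝ}

open Classical in
variable (O π j₀ j₀' b I D D' ρ) in
/-- the depths of the exact part -/
def rho (j' : 𝓔 × Sl) (s : Bool) : Option ℝ :=
  if j' = j₀' then if s = b then some D else if I then (ρ j₀ (!b)).map (· + D') else none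
  else if h : ∃ j, O j ∧ (j.1, π j) = j' then ρ h.choose s else none

theorem rho_main : rho O π j₀ j₀' b I D D' ρ j₀' b = some D := by simp [rho]

theorem rho_back (h : I) : rho O π j₀ j₀' b I D D' ρ j₀' (!b) = (ρ j₀ (!b)).map (· + D') := by
  simp [rho, h]

theorem rho_oth (h : O j) (h1 : (j.1, π j) ≠ j₀')
    (h2 : ∀ j', O j' → (j'.1, π j') = (j.1, π j) → j' = j) :
    rho O π j₀ j₀' b I D D' ρ (j.1, π j) = ρ j := funext fun s => by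
  have k : ∃ j', O j' ∧ (j'.1, π j') = (j.1, π j) := ⟨j, h, rfl⟩
  rw [rho, if_neg h1, dif_pos k, h2 _ k.choose_spec.1 k.choose_spec.2]

theorem rho_mem (h : r ∈ rho O π j₀ j₀' b I D D' ρ j' s) : (j' = j₀' ∧ s = b ∧ r = D) ∨
    (j' = j₀' ∧ s = !b ∧ I ∧ ∃ r₀ ∈ ρ j₀ (!b), r = r₀ + D') ∨
      ∃ j, O j ∧ (j.1, π j) = j' ∧ r ∈ ρ j s := by
  rw [rho] at h
  split_ifs at h with h1 h2 h3 h4
  · exact .inl ⟨h1, h2, (Option.some.inj h).symm⟩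
  · obtain ⟨r₀, k1, k2⟩ := Option.mem_map.1 h
    exact .inr (.inl ⟨h1, (eq_or_not s b).resolve_left h2, h3, r₀, k1, k2.symm⟩)
  · cases h
  · exact .inr (.inr ⟨_, h4.choose_spec.1, h4.choose_spec.2, h⟩)
  · cases h

end rho

variable {d : Dt κ lam ν} [Fintype d.𝓔] {Sl : Type} [Fintype Sl]
  {T T' : Type} [NormedAddCommGroup T] [NormedSpace ℝ T] [FiniteDimensional ℝ T]
  [NormedAddCommGroup T'] [NormedSpace ℝ T'] [FiniteDimensional ℝ T']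
  {s : StS d Sl X} {s' : StS d Sl X'} {σ : Cel s nc nr T} {σ' : Cel s' nc' nr' T'}
  {ι : Type} {l : Filter ι} [l.NeBot] {q : ι → d.W →₀ ℝ} {y : ι → σ.Pnt}
  {ρ : ι → d.𝓔 × Sl → Bool → Option ℝ} {ε : d.𝓔} {a a' : Sl} {b : Bool} {τ δ : ι → ℝ}
  {v : (d.e ε).YC} {t' : ι → T'} {φ : ι → OpenPartialHomeomorph X'.M X.M} {O : d.𝓔 × Sl → Prop}
  {π : d.𝓔 × Sl → Sl} {cc : Fin nc' → Fin nc} {J : Finset d.W}

/-- the supports of the cuts are bounded -/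
theorem cut_bd (h : σ'.toFam.OK) (J : Finset d.W) {f : X'.M → ℝ} (hf : Continuous f) :
    ∃ R B : ℝ, ∀ t ∈ σ'.Q, ∀ j, Kop92.Sp R ((σ'.P t).bg.ct j).ρ ∧ Kop92.Sp R ((σ'.P t).bg.ct j).η ∧
      (∀ w ∈ J, Kop92.Sp R ((σ'.P t).η w j)) ∧ ∀ z, ‖z‖ ≤ R → f (((σ'.P t).bg.ct j).Ξ z) ≤ B := by
  obtain ⟨t₀, h0⟩ := h.ne
  have k : ∀ {g : T' → R4 → Eu ν}, JC σ'.Q g → ∀ᶠ R in atTop, ∀ t ∈ σ'.Q, Kop92.Sp R (g t) :=
    fun ⟨_, K, h1, h2⟩ => by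
      obtain ⟨R, hR⟩ := h1.isBounded.subset_closedBall 0
      filter_upwards [eventually_ge_atTop R] with R' h3 t ht z hz
      exact h2 t ht z fun k => by linarith [mem_closedBall_zero_iff.1 (hR k)]
  obtain ⟨R, h1, h2, h3⟩ := ((eventually_all.2 fun j => (Kop92.exists_sp ((h.ok t₀ h0).bg.ct j).cρ).elim
    fun R hR => (eventually_ge_atTop R).mono fun _ => hR.mono).and ((eventually_all.2 fun j =>
      k (h.η0 j)).and (eventually_all.2 fun j => (eventually_all_finset J).2 fun w _ =>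
        k (h.η w j)))).exists
  obtain ⟨B, hB⟩ := (isCompact_iUnion fun j => (isCompact_closedBall (0 : R4) R).image
    (hf.comp ((h.ok t₀ h0).bg.ct j).sm.continuous)).bddAbove
  refine ⟨R, B, fun t ht j => ⟨(h.ct t ht t₀ h0 j).2 ▸ h1 j, h2 j t ht, fun w hw => h3 j w hw t ht,
    fun z hz => ?_⟩⟩
  rw [(h.ct t ht t₀ h0 j).1]
  exact hB (mem_iUnion.2 ⟨j, z, mem_closedBall_zero_iff.2 hz, rfl⟩)

variable (y ε a a' b τ δ φ O π cc J) in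
/-- the data of one side -/
def Go (i : ι) (t : T') : Prop := ∃ K K', Hf (σ.P (y i).1.1) (σ'.P t) ε a a' b (φ i) (δ i) O π cc J
  K K' (τ i) ∧ ∀ w ∈ J, ∀ x, dep b (δ i) K' (τ i) x ≤ 0 →
    (σ.P (y i).1.1).fo w (φ i x) = (σ'.P t).fo w x

/-- **one side of the cut** -/
theorem side (hσ : σ.OK) (hσ' : σ'.OK) (hp : σ.PS l q y ρ) (hw : σ.Win l y ρ (ε, a) v τ)
    (ev : σ'.β (ε, a') b = v) (hJ : ∀ i, (q i).support ⊆ J) {C₀ η₀ : ℝ}
    (hb : ∀ᶠ i in l, σ.Bnd C₀ η₀ (y i))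
    (hH : ∀ᶠ i in l, t' i ∈ σ'.Q ∧ Go (σ' := σ') y ε a a' b τ δ φ O π cc J i (t' i))
    (h1 : Tendsto (fun i => pm b * (τ i - δ i)) l atTop)
    (h2 : s.Inf (ε, a) (!b) → ∀ r₀, ∀ᶠ i in l, ∀ r ∈ ρ i (ε, a) (!b), r₀ ≤ r + pm b * δ i)
    (h3 : s.Inf (ε, a) (!b) → σ'.β (ε, a') (!b) = σ.β (ε, a) (!b))
    (h4 : ∀ j b', O j → s.Inf j b' → σ.β j b' = σ'.β (j.1, π j) b')
    (hR : ∀ᶠ i in l, ∀ K : Nk (d.e ε) (σ.P (y i).1.1).bg, (σ.P (y i).1.1).nk (ε, a) = some K → ∀ c',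
      (∀ K₀ : Nk (d.e ε) s'.bg, s'.nk (ε, a') = some K₀ → ∀ t ∈ K₀.J,
        sl (K₀.pb c') t = sl (pst b (τ i) v (K.pb (y i).1.2)) (t + δ i)) → σ'.R (t' i) c' = 0) :
    ∃ (x : ι → σ'.Pnt) (ρ' : ι → d.𝓔 × Sl → Bool → Option ℝ), σ'.PS l q x ρ' ∧
      (∀ᶠ i in l, (x i).1.1 = t' i ∧ (∀ z ∈ σ'.upto (ε, a') b (pm b * (τ i - δ i) + 1),
        At (φ i) (x i).1.2 (y i).1.2 z) ∧ ρ' i (ε, a') b = some (pm b * (τ i - δ i))) ∧
      (∀ C' > C₀, ∀ η' < η₀, ∀ᶠ i in l, σ'.Bnd C' η' (x i)) ∧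
      ∀ E E' : ℝ≥0∞, E < E' → (∀ᶠ i in l, (σ.P (y i).1.1).ean (y i).1.2 ≤ E) →
        ∀ᶠ i in l, (σ'.P (x i).1.1).ean (x i).1.2 ≤ E' := by
  have he : (d.e ε).OK := hσ.site.en (ε, a)
  obtain ⟨i₀, q₀, K₁, K₁', g₀, -⟩ := hH.exists
  obtain ⟨K₀, hK₀, n₀⟩ := inf_site hσ'.toOK q₀ (i := (ε, a')) g₀.hK' g₀.inf
  have hv : Crit v := ev ▸ (hσ'.gd (ε, a') b ⟨K₀, hK₀, (ng_inf n₀).1 g₀.inf⟩).crit
  have ng : ∀ {t}, t ∈ σ'.Q → ∀ {K' : Nk (d.e ε) (σ'.P t).bg}, (σ'.P t).nk (ε, a') = some K' →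
      K'.ng = K₀.ng := fun ht K' h => by
    obtain ⟨K, k1, k2⟩ := hσ'.en _ ht (ε, a') K₀ hK₀
    obtain rfl := Option.some.inj (h.symm.trans k1)
    exact k2
  have fi : ∀ i j b', (σ.P (y i).1.1).Inf j b' → s.Inf j b' := fun i j b' =>
    (inf_iff hσ.toOK (y i).2.1 j b').1
  have ex : ∀ᶠ i in l, ∃ x : σ'.Pnt, x.1.1 = t' i ∧ ∃ K K',
      Hf (σ.P (y i).1.1) (σ'.P x.1.1) ε a a' b (φ i) (δ i) O π cc J K K' (τ i) ∧
      (∀ w ∈ J, ∀ z, dep b (δ i) K' (τ i) z ≤ 0 →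
        (σ.P (y i).1.1).fo w (φ i z) = (σ'.P x.1.1).fo w z) ∧
      x.1.2 = xx b (φ i) (δ i) K' (τ i) v (y i).1.2 :=
    hH.mono fun i ⟨k0, K, K', k1, k2⟩ => ⟨⟨(t' i, _), k0, k1.as (y i).2.2 hv.1 ev
      (fun k => h3 (fi i _ _ ⟨K, k1.hK, k⟩)) fun j b' k k' => h4 j b' k (fi i _ _ k')⟩,
        rfl, K, K', k1, k2, rfl⟩
  obtain ⟨x, hx⟩ := ex.choice
  let ρ' := fun i => rho O π (ε, a) (ε, a') b (s.Inf (ε, a) (!b)) (pm b * (τ i - δ i)) (pm b * δ i) (ρ i)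
  have en : ∀ η > 0, ∀ᶠ i in l, (σ'.P (x i).1.1).ean (x i).1.2 ≤
      (σ.P (y i).1.1).ean (y i).1.2 + ENNReal.ofReal η * 6 := fun η h0 => by
    filter_upwards [hx, winl b hw hv he 3 h0] with i ⟨_, K, K', k1, _, k3⟩ k4
    rw [k3]
    exact k1.ean hv fun t ht => (k4 K k1.hK t ht).2.2
  refine ⟨x, ρ', ⟨fun r₀ => ?_, ?_, fun R w η h0 => ?_⟩, ?_, fun C' c1 η' c2 => ?_,
    fun E E' c1 c2 => ?_⟩
  · filter_upwards [h1.eventually_ge_atTop r₀, hp.far r₀, (eventually_imp_distrib_left).2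
      fun k => h2 k r₀] with i k1 k2 k3 j b' r hr
    rcases rho_mem hr with ⟨-, -, rfl⟩ | ⟨-, -, k, r, k', rfl⟩ | ⟨j, -, -, k⟩
    exacts [k1, k3 k r k', k2 j b' r k]
  · obtain ⟨R, B, hB⟩ := cut_bd hσ'.toOK J (f := fun z => pm b * K₀.tm z) (continuous_const.mul K₀.cont)
    filter_upwards [hx, hp.eq, winp b hw hv 0 0 one_pos, hR, h1.eventually_ge_atTop B]
      with i ⟨k0, K, K', k1, k2, k3⟩ k4 k5 k6 k7
    have n := ng (x i).2.1 k1.hK'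
    refine ⟨fun z hz => ?_, fun j => ?_, k0 ▸ k6 K k1.hK _ fun K₂ e t ht => ?_⟩
    · obtain ⟨z1, z2⟩ := k1.reg (ρ := ρ i) (ρ' := ρ' i) rho_main
        (fun k => rho_back (fi i _ _ ⟨K, k1.hK, k⟩))
        (fun k r hr => by linarith [(k5 K k1.hK).2.1 b k r hr])
        (fun j k => rho_oth k (k1.H.choose_spec.oth j k).2.1 fun j' k' => k1.H.choose_spec.inj j' j k' k)
        (reg_fam hσ'.toOK (x i).2.1 _ ▸ hz)
      rw [k3]
      exact k1.eqs z1 (fun w hw => k2 w (hJ i hw) z z1) (k4.1 _ (reg_fam hσ.toOK (y i).2.1 _ ▸ z2))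
    · obtain ⟨b1, b2, b3, b4⟩ := hB _ (x i).2.1 j
      rw [k3]
      refine k1.cuts (y i).2.2.1 (hJ i) j b1 b2 b3 (fun z hz => ?_) (k4.2.1 _)
      rw [dep, mul_sub, ng_tm n]
      linarith [b4 z hz]
    · obtain rfl := Option.some.inj ((Option.mem_def.1 hK₀).symm.trans e)
      rw [← k1.sl_pb (t := t) (by rwa [Nd18.Nk.J, ng_p n, ng_q n]), k3, Nk.pb, Nk.pb, ng_ψ n]
  · obtain ⟨η', e1, e2⟩ := tlz_pst (e := d.e ε) w R h0
    filter_upwards [hx, hp.tl R w η h0, winp b hw hv w.length (|R| + 3) e1]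
      with i ⟨_, K, K', k1, _, k3⟩ k4 k5 j' b' K₂ hK₂ hi r hr
    obtain ⟨K₃, n1, n2⟩ := hσ'.en _ (x i).2.1 j' K₂ hK₂
    rw [← ng_tl n2, k3]
    rcases rho_mem hr with ⟨rfl, rfl, rfl⟩ | ⟨rfl, rfl, k, r, k', rfl⟩ | ⟨j, k, rfl, k'⟩
    · obtain rfl := Option.some.inj (k1.hK'.symm.trans n1)
      rw [ev]
      exact (k1.tl_main R w).trans (e2 _ _ _ _ (k5 K k1.hK).2.2.2)
    · obtain rfl := Option.some.inj (k1.hK'.symm.trans n1)
      have i1 := (half_inf k1.H.choose_spec k1.hK k1.hK').2 ((ng_inf n2).2 hi)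
      obtain ⟨Ks, s1, s2⟩ := inf_site hσ.toOK (y i).2.1 (i := (ε, a)) k1.hK i1
      have := (k5 K k1.hK).2.1 _ i1 r k'
      rw [pm_not] at this
      rw [h3 k]
      exact (k1.tl_back (T := r - R) (by linarith) (by
        linarith [le_abs_self R, mul_sub (pm b) (τ i) (δ i)]) _ w).trans ((ng_tl s2 _ w).trans_le
          (k4 (ε, a) _ Ks s1 ((ng_inf s2).1 i1) r k'))
    · obtain ⟨K₄, o1, o2, o3⟩ := k1.tl_oth (v := v) (c := (y i).1.2) k n1 ((ng_inf n2).2 hi)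
      obtain ⟨Ks, s1, s2⟩ := inf_site hσ.toOK (y i).2.1 o1 o2
      rw [← h4 j b' k ⟨Ks, s1, (ng_inf s2).1 o2⟩]
      exact (o3 _ _ w).trans ((ng_tl s2 _ w).trans_le (k4 j b' Ks s1 ((ng_inf s2).1 o2) r k'))
  · filter_upwards [hx] with i ⟨k0, K, K', k1, _, k3⟩
    have n := ng (x i).2.1 k1.hK'
    refine ⟨k0, fun z hz => k3 ▸ xx_at (k1.le_dep ?_ zero_le_one), rho_main⟩
    rw [Nd18.Nk.J, ng_p n, ng_q n, ng_tm n]
    exact (not_far K₀).1 (hz K₀ hK₀)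
  · have e1 : 0 < (C' - C₀) / 6 := by linarith
    have e2 : 0 < (η₀ - η') / 2 := by linarith
    filter_upwards [hx, hb, en _ e1, winp b hw hv 0 3 e1, winl b hw hv he 3 e2]
      with i ⟨_, K, K', k1, _, k3⟩ k4 k5 k6 k7
    have t0 : τ i ∈ Ioo (τ i - 3) (τ i + 3) := ⟨by linarith, by linarith⟩
    have c0 : 0 ≤ C₀ := (norm_nonneg _).trans (k4.sup (K.ψ (Classical.arbitrary _, 0)))
    refine ⟨k5.trans ((add_le_add_left k4.en _).trans (le_of_eq ?_)), fun z => ?_, ?_⟩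
    · rw [← ENNReal.ofReal_ofNat, ← ENNReal.ofReal_mul e1.le, ← ENNReal.ofReal_add c0 (by linarith)]
      congr 1
      ring
    · rw [k3]
      refine xx_sup (fun z => (k4.sup z).trans c1.le) (fun z => ?_) z
      have := ((k6 K k1.hK).2.2.1 [] le_rfl (z, τ i) ⟨trivial, t0⟩).2
      linarith [norm_sub_norm_le (v.Φ z) ((y i).1.2.Φ (K.ψ (z, τ i))), k4.sup (K.ψ (z, τ i)),
        (norm_sub_rev (v.Φ z) ((y i).1.2.Φ (K.ψ (z, τ i)))).trans_le this]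
    · have n0 := abs_le.1 (k7 K k1.hK _ t0).2.1
      rw [sl_pst (by simp)] at n0
      have n1 := k4.low (ε, a) K k1.hK (τ i) (k1.near (by simp))
      rw [Cel.Low, k3]
      exact k1.low (fun j K₂ e t ht => c2.le.trans (k4.low j K₂ e t ht)) (by linarith [n0.2])
        fun t ht => by linarith [(abs_le.1 (k7 K k1.hK t ht).2.1).1, n0.2]
  · obtain ⟨r, r0, r1⟩ := ENNReal.lt_iff_exists_add_pos_lt.1 c1
    filter_upwards [c2, en (r / 6) (by positivity)] with i k1 k2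
    refine k2.trans ((add_le_add_left k1 _).trans (le_trans (le_of_eq ?_) r1.le))
    rw [← ENNReal.ofReal_ofNat, ← ENNReal.ofReal_mul (by positivity), div_mul_cancel₀ _ (by norm_num),
      ENNReal.ofReal_coe_nnreal]

end Crest.Agent.X212.Cut71
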